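import Vale.Agent.P218UW.Mom
import Vale.Agent.P218UK.Time
import Vale.Agent.P218UG.Disc

/-! Local regularity at unit scale: if `|A| ≤ 1` in the unit parabolic cylinder and the Gaussian
density ratios are close to one, then `|A|` is small at the centre. -/

open MeasureTheory Set Filter Topology Metric
open scoped ENNReal RealInnerProductSpace ContDiff

namespace Vale.Agent.P218UW

open Vale.Agent.P218UA Vale.Agent.P218UM
open Vale.Agent.P218.H63 (lap hessSq)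

variable {w : ℝ → E3 → ℝ} {I : Set ℝ} {A t : ℝ} {x : E3}

/-- the integrand of the dissipation -/
noncomputable def dd (w : ℝ → E3 → ℝ) (x₀ : E3) (t₀ : ℝ) (p : ST) : ℝ :=
  (lap (w p.1) p.2 - ⟪p.2 - x₀, gradient (w p.1) p.2⟫ / (2 * (t₀ - p.1))) ^ 2
    * Real.exp (-‖p.2 - x₀‖ ^ 2 / (4 * (t₀ - p.1))) / (4 * Real.pi * (t₀ - p.1))

lemma dis_eq (x₀ : E3) (t₀ t : ℝ) :
    dis w x₀ t₀ t = ∫⁻ y, ENNReal.ofReal (dd w x₀ t₀ (t, y)) ∂(ar (w t)) := rfl

lemma cont_dd (h : IsFlow w I) (x₀ : E3) (t₀ : ℝ) :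
    ContinuousOn (dd w x₀ t₀) ((I ∩ Iio t₀) ×ˢ univ) := by
  have hs : (I ∩ Iio t₀) ×ˢ (univ : Set E3) ⊆ I ×ˢ univ := prod_mono inter_subset_left subset_rfl
  have h0 : ∀ p ∈ (I ∩ Iio t₀) ×ˢ (univ : Set E3), 0 < t₀ - p.1 := fun p hp => sub_pos.2 hp.1.2
  refine (((((P218UK.cont_lap h).mono hs).sub ((ContinuousOn.inner (by fun_prop)
    ((P218UK.cont_grad h).mono hs)).div (by fun_prop) fun p hp => ?_)).pow 2).mul
    (ContinuousOn.rexp (ContinuousOn.div (by fun_prop) (by fun_prop) fun p hp => ?_))).div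
    (by fun_prop) fun p hp => ?_ <;> have := h0 p hp <;> positivity

lemma aemeasurable_dis (h : IsFlow w I) (x₀ : E3) (t₀ : ℝ) {T : Set ℝ} (hT : MeasurableSet T)
    (hs : T ⊆ I ∩ Iio t₀) : AEMeasurable (dis w x₀ t₀) (volume.restrict T) := by
  classical
  have hm := (ENNReal.continuous_ofReal.comp_continuousOn (cont_dd h x₀ t₀)).measurable_piecewise
    (g := fun _ => 0) continuousOn_const
    ((h.isOpen.inter isOpen_Iio).prod isOpen_univ).measurableSet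
  refine ((P218UX.stm_meas h hm).mono_measure
    (Measure.restrict_mono (hs.trans inter_subset_left) le_rfl)).congr ?_
  filter_upwards [ae_restrict_mem hT] with t ht
  exact lintegral_congr fun y => piecewise_eq_of_mem _ _ _ ⟨hs ht, mem_univ _⟩

lemma dis_small (hM : Mono) (h : IsARFlow w I A) {x₀ : E3} {t₀ t₁ t₂ ε : ℝ} (h₀ : t₀ ∈ I)
    (h₁ : t₁ ∈ I) (h12 : t₁ ≤ t₂) (h20 : t₂ < t₀) (hx : w t₀ x₀ = 0) (hε : 0 ≤ ε)
    (hd : gd (ar (w t₁)) x₀ √(t₀ - t₁) ≤ 1 + ε) :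
    ∫⁻ t in Ioo t₁ t₂, dis w x₀ t₀ t ≤ ENNReal.ofReal ε := by
  have h₂ : t₂ ∈ I := h.conn.out h₁ h₀ ⟨h12, h20.le⟩
  have a1 := (hM.mono w I A h x₀ t₀ t₁ t₂ h₁ h₂ h12 h20).trans (ENNReal.ofReal_le_ofReal hd)
  have a2 := ENNReal.ofReal_le_ofReal (hM.clear w I A h t₀ h₀ x₀ hx t₂ h₂ h20)
  rw [ENNReal.ofReal_add zero_le_one hε] at a1
  exact (ENNReal.add_le_add_iff_left ENNReal.ofReal_ne_top).1 ((add_le_add a2 le_rfl).trans a1)

/-- the cross product -/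
def crs (a b : E3) : Fin 3 → ℝ :=
  ![a 1 * b 2 - a 2 * b 1, a 2 * b 0 - a 0 * b 2, a 0 * b 1 - a 1 * b 0]

lemma crs_sq (a b : E3) : ∑ i, crs a b i ^ 2 = ‖a‖ ^ 2 * ‖b‖ ^ 2 - ⟪a, b⟫ ^ 2 := by
  simp only [norm_sq_eq_sum, inner_eq_sum, Fin.sum_univ_three, crs, Matrix.cons_val_zero,
    Matrix.cons_val_one, Matrix.cons_val]
  ring

lemma crs_tilt {a b n : E3} (ha : ‖a‖ ≤ 1) (hb : ‖b‖ ≤ 1) (hn : ‖n‖ = 1) :
    ∑ i, crs a b i ^ 2 - (∑ i, crs a b i * n i) * ∑ i, crs a b i * n i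
      ≤ 2 * (⟪a, n⟫ ^ 2 + ⟪b, n⟫ ^ 2) := by
  have e : (∑ i, crs a b i ^ 2) * ‖n‖ ^ 2 - (∑ i, crs a b i * n i) * ∑ i, crs a b i * n i
      = ‖⟪a, n⟫ • b - ⟪b, n⟫ • a‖ ^ 2 := by
    simp only [norm_sq_eq_sum, inner_eq_sum, Fin.sum_univ_three, crs, Matrix.cons_val_zero,
      Matrix.cons_val_one, Matrix.cons_val, PiLp.sub_apply, PiLp.smul_apply, smul_eq_mul]
    ring
  rw [hn, one_pow, mul_one] at e
  have h1 : ‖⟪a, n⟫ • b - ⟪b, n⟫ • a‖ ≤ |⟪a, n⟫| + |⟪b, n⟫| := by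
    refine (norm_sub_le _ _).trans ?_
    rw [norm_smul, norm_smul]
    exact add_le_add (mul_le_of_le_one_right (norm_nonneg _) hb)
      (mul_le_of_le_one_right (norm_nonneg _) ha)
  have h2 := pow_le_pow_left₀ (norm_nonneg _) h1 2
  rw [e, ← sq_abs ⟪a, n⟫, ← sq_abs ⟪b, n⟫]
  nlinarith [sq_nonneg (|⟪a, n⟫| - |⟪b, n⟫|)]

/-- two points of the final surface that span a definite area with the origin -/
lemma exists_pts (h : Cfg w I A) (h0 : w 0 0 = 0) : ∃ a b : E3, ‖a‖ ≤ 1 ∧ ‖b‖ ≤ 1 ∧ w 0 a = 0 ∧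
    w 0 b = 0 ∧ 1 / 10 ^ 4 ≤ ∑ i, crs a b i ^ 2 := by
  have hI0 : (0 : ℝ) ∈ I := h.sub ⟨by norm_num, le_rfl⟩
  have hn : ‖gradient (w 0) 0‖ = 1 := (h.eik 0 hI0 0 h0).self_of_nhds
  set n := gradient (w 0) 0 with hn'
  obtain ⟨u, -, hu⟩ := P218UG.exists_disc (k := ∞) (w := w 0) (x := 0) (n := n) (by norm_cast)
    (P218UX.slice h.toIsFlow hI0).smooth hn h0 (a := 1) (r := 1) (R := 3 / 20) (θ := 0)
    (by simp [hn']) (fun y hy hy1 => by
      have := norm_hs_sq_le (isOpen_st h.isOpen) (sm_flow h.toIsFlow) (t := 0) (x := y)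
        ⟨hI0, mem_univ _⟩
      rw [hessSq_eq_SS h.toIsFlow hI0] at this
      exact (sq_le_one_iff₀ (norm_nonneg _)).1
        (this.trans (h.bd 0 ⟨by norm_num, le_rfl⟩ y (by simpa using hy1) hy)))
    (by norm_num) (by norm_num)
  have hr : Module.finrank ℝ (P218GA.hyp n) = 2 :=
    P218GA.finrank_hyp P218UX.rank3 (by rw [← norm_ne_zero_iff, hn]; exact one_ne_zero)
  let e : OrthonormalBasis (Fin 2) ℝ (P218GA.hyp n) :=
    (stdOrthonormalBasis ℝ _).reindex (finCongr hr)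
  have he : ∀ i, ‖(1 / 10 : ℝ) • e i‖ = 1 / 10 := fun i => by
    rw [norm_smul, e.norm_eq_one]; norm_num
  have hg : ∀ η ζ : P218GA.hyp n,
      ⟪P218UG.gr 0 n u η, P218UG.gr 0 n u ζ⟫ = ⟪η, ζ⟫ + u η * u ζ := fun η ζ => by
    simp only [P218UG.gr, zero_add, inner_add_left, inner_add_right, real_inner_smul_left,
      real_inner_smul_right, P218GA.inner_hyp, real_inner_comm n (η : E3),
      real_inner_self_eq_norm_sq, hn, Submodule.coe_inner]
    ring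
  obtain ⟨-, a1, -, a2, -⟩ := hu _ ((he 0).trans_lt (by norm_num))
  obtain ⟨-, b1, -, b2, -⟩ := hu _ ((he 1).trans_lt (by norm_num))
  rw [he, sub_zero] at a2 b2
  refine ⟨_, _, by linarith, by linarith, a1, b1, ?_⟩
  rw [crs_sq, ← real_inner_self_eq_norm_sq, ← real_inner_self_eq_norm_sq, hg, hg, hg,
    real_inner_self_eq_norm_sq, real_inner_self_eq_norm_sq, he, he, real_inner_smul_left,
    real_inner_smul_right, e.inner_eq_zero (by decide)]
  nlinarith [mul_self_nonneg (u ((1 / 10 : ℝ) • e 0)), mul_self_nonneg (u ((1 / 10 : ℝ) • e 1))]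

lemma dd_ge {τ : ℝ} (hτ : 0 < τ) (ht : t ≤ -τ / 2) {a : E3} (ha : ‖a‖ ≤ 1) (hx : ‖x‖ ≤ 1) :
    psi t x * (lap (w t) x - ⟪x - a, gradient (w t) x⟫ / (2 * (0 - t))) ^ 2
      ≤ Real.exp (2 / τ) * dd w a 0 (t, x) := by
  have ht0 : t < 0 := by linarith
  have hneg : 0 < -t := neg_pos.2 ht0
  have h1 : Ph t x ≤ Real.exp (2 / τ) * (Real.exp (-‖x - a‖ ^ 2 / (4 * (0 - t)))
      / (4 * Real.pi * (0 - t))) := by
    rw [Ph, zero_sub, ← mul_div_assoc, ← Real.exp_add]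
    refine div_le_div_of_nonneg_right (Real.exp_le_exp.2 ?_) (by positivity)
    have a1 : -‖x‖ ^ 2 / (4 * -t) ≤ 0 :=
      div_nonpos_of_nonpos_of_nonneg (neg_nonpos.2 (sq_nonneg _)) (by positivity)
    have a2 : ‖x - a‖ ^ 2 ≤ 2 ^ 2 :=
      pow_le_pow_left₀ (norm_nonneg _) ((norm_sub_le _ _).trans (by linarith)) 2
    have a3 : ‖x - a‖ ^ 2 / (4 * -t) ≤ 2 / τ := by
      rw [div_le_div_iff₀ (by positivity) hτ]
      nlinarith
    rw [neg_div _ (‖x - a‖ ^ 2)]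
    linarith
  refine (mul_le_mul_of_nonneg_right ((psi_le ht0 x).trans h1) (sq_nonneg _)).trans (le_of_eq ?_)
  simp only [dd]
  ring

lemma dd_nonneg {a : E3} (ht : t < 0) : 0 ≤ dd w a 0 (t, x) := by
  have : 0 < 0 - t := by linarith
  simp only [dd]
  positivity

/-- the tilt is controlled by three dissipations -/
lemma tilt_le (h : Cfg w I A) {τ : ℝ} (hτ : 0 < τ) (ht1 : -1 ≤ t) (ht : t ≤ -τ / 2) {a b : E3}
    (ha : ‖a‖ ≤ 1) (hb : ‖b‖ ≤ 1) : ENNReal.ofReal (mm w (tl (crs a b) (unc w)) t)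
      ≤ ENNReal.ofReal (32 * Real.exp (2 / τ)) * (dis w 0 0 t + dis w a 0 t + dis w b 0 t) := by
  have ht0 : t < 0 := by linarith
  have htI : t ∈ I := h.sub ⟨ht1, ht0.le⟩
  have hm : ∀ z, Measurable fun y => ENNReal.ofReal (dd w z 0 (t, y)) := fun z =>
    (ENNReal.continuous_ofReal.comp ((cont_dd h.toIsFlow z 0).comp_continuous
      (Continuous.prodMk_right t) fun y => ⟨⟨htI, ht0⟩, mem_univ _⟩)).measurable
  rw [dis_eq, dis_eq, dis_eq, ← lintegral_add_left (hm _), ← lintegral_add_right _ (hm _),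
    ← lintegral_const_mul' _ _ ENNReal.ofReal_ne_top, mm, ofReal_integral_eq_lintegral_ofReal
      (integrable_psi h.toIsFlow htI ht0 ((sm_flow h.toIsFlow).tl (isOpen_st h.isOpen) _))
      ((ae_track h.toIsFlow htI).mono fun x hx =>
        mul_nonneg (psi_nonneg ht0 x) (tl_nonneg _ (eik_track h.toIsFlow htI hx)))]
  refine lintegral_mono_ae ((ae_track h.toIsFlow htI).mono fun x hx => ?_)
  rw [← ENNReal.ofReal_add (dd_nonneg ht0) (dd_nonneg ht0), ← ENNReal.ofReal_add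
    (add_nonneg (dd_nonneg ht0) (dd_nonneg ht0)) (dd_nonneg ht0),
    ← ENNReal.ofReal_mul (by positivity)]
  refine ENNReal.ofReal_le_ofReal ?_
  rcases le_or_gt ‖x‖ 1 with hx1 | hx1
  swap
  · rw [psi_zero t hx1.le, zero_mul]
    exact mul_nonneg (by positivity)
      (add_nonneg (add_nonneg (dd_nonneg ht0) (dd_nonneg ht0)) (dd_nonneg ht0))
  have a0 := dd_ge (w := w) hτ ht (a := 0) (by simp) hx1
  have a1 := dd_ge (w := w) hτ ht ha hx1
  have a2 := dd_ge (w := w) hτ ht hb hx1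
  have a3 := crs_tilt ha hb (h.eik t htI x hx).self_of_nhds
  simp only [gradient_apply ((sm_flow h.toIsFlow).diffAt (isOpen_st h.isOpen)
    (show (t, x) ∈ I ×ˢ (univ : Set E3) from ⟨htI, mem_univ _⟩))] at a3
  have key : ∀ z : E3, ⟪z, gradient (w t) x⟫ ^ 2
      ≤ 8 * ((lap (w t) x - ⟪x - 0, gradient (w t) x⟫ / (2 * (0 - t))) ^ 2
        + (lap (w t) x - ⟪x - z, gradient (w t) x⟫ / (2 * (0 - t))) ^ 2) := fun z => by
    obtain ⟨p, hp⟩ : ∃ p, p = lap (w t) x - ⟪x - 0, gradient (w t) x⟫ / (2 * (0 - t)) := ⟨_, rfl⟩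
    obtain ⟨q, hq⟩ : ∃ q, q = lap (w t) x - ⟪x - z, gradient (w t) x⟫ / (2 * (0 - t)) := ⟨_, rfl⟩
    have e : ⟪z, gradient (w t) x⟫ = 2 * -t * (q - p) := by
      have := ht0.ne
      rw [hp, hq, sub_zero, inner_sub_left, zero_sub]
      field_simp
      ring
    have a4 : t ^ 2 ≤ 1 := by nlinarith
    rw [← hp, ← hq, e]
    nlinarith [sq_nonneg (q + p), sq_nonneg (q - p)]
  have a5 : tl (crs a b) (unc w) (t, x)
      ≤ 32 * ((lap (w t) x - ⟪x - 0, gradient (w t) x⟫ / (2 * (0 - t))) ^ 2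
        + (lap (w t) x - ⟪x - a, gradient (w t) x⟫ / (2 * (0 - t))) ^ 2
        + (lap (w t) x - ⟪x - b, gradient (w t) x⟫ / (2 * (0 - t))) ^ 2) := by
    refine le_trans a3 ?_
    linarith [key a, key b, sq_nonneg (lap (w t) x - ⟪x - a, gradient (w t) x⟫ / (2 * (0 - t))),
      sq_nonneg (lap (w t) x - ⟪x - b, gradient (w t) x⟫ / (2 * (0 - t)))]
  have := mul_le_mul_of_nonneg_left a5 (psi_nonneg ht0 x)
  linarith

/-- **local regularity at unit scale** -/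
theorem core (hM : Mono) (A : ℝ) {κ : ℝ} (hκ : 0 < κ) : ∃ ε > 0, ∀ w I, Cfg w I A →
    (∀ x, ‖x‖ ≤ 1 → w 0 x = 0 → gd (ar (w (-1))) x 1 ≤ 1 + ε) → w 0 0 = 0 →
    SS (unc w) (0, 0) ≤ κ := by
  obtain ⟨K, hK, hder⟩ := exists_deriv_le
  obtain ⟨L, hL0, hL⟩ : ∃ L, 0 < L ∧ K * A ≤ L := ⟨max 1 (K * A), by simp, le_max_right _ _⟩
  obtain ⟨b, hb⟩ : ∃ b, b = Real.exp (-6) * κ / (2 * 10 ^ 4) := ⟨_, rfl⟩
  have hb0 : 0 < b := by rw [hb]; positivity
  obtain ⟨τ, hτ0, hτ1, hτ⟩ : ∃ τ, 0 < τ ∧ τ ≤ 1 / 2 ∧ L * τ ≤ b :=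
    ⟨min (1 / 2) (b / L), by positivity, min_le_left _ _,
      (le_div_iff₀' hL0).1 (min_le_right _ _)⟩
  obtain ⟨C, hC⟩ : ∃ C, C = 32 * Real.exp (2 / τ) := ⟨_, rfl⟩
  have hC0 : 0 < C := by rw [hC]; positivity
  obtain ⟨g, hg⟩ : ∃ g, g = Real.exp (-4) * (b * (τ / 4)) := ⟨_, rfl⟩
  have hg0 : 0 < g := by rw [hg]; positivity
  refine ⟨g * τ / (12 * C), by positivity, fun w I h hd h0 => ?_⟩
  by_contra hcon
  rw [not_le] at hcon
  have hF := h.toIsFlow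
  have hO := isOpen_st h.isOpen
  have hS := (sm_flow hF).SS hO
  have hI : ∀ u, -τ ≤ u → u ≤ 0 → u ∈ I := fun u h1 h2 => h.sub ⟨by linarith, h2⟩
  have hKA : 0 ≤ K * A := mul_nonneg hK (by linarith [h.one_le])
  have hLu : ∀ u, -τ ≤ u → u < 0 → K * A * -u ≤ b := fun u h1 h2 =>
    (mul_le_mul hL (by linarith) (by linarith) hL0.le).trans hτ
  have hexp : ∀ k u : ℝ, 0 ≤ k → -τ ≤ u → u ≤ 0 →
      1 ≤ Real.exp (-k * u) ∧ Real.exp (-k) * Real.exp (-k * u) ≤ 1 := fun k u hk h1 h2 => by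
    rw [← Real.exp_add]
    exact ⟨Real.one_le_exp (by nlinarith), Real.exp_le_one_iff.2 (by nlinarith)⟩
  have h6 : Real.exp 6 * Real.exp (-6) = 1 := by rw [← Real.exp_add]; simp
  -- lower bound for the weighted curvature
  have hm : ∀ t, -τ ≤ t → t < 0 → 10 ^ 4 * b ≤ mm w (SS (unc w)) t := by
    intro t h1 h2
    obtain ⟨s, hs, hs'⟩ := exists_mm_ge hM h h0 hS (SS_nonneg _) hcon h2
    have a1 := ode (f := mm w (SS (unc w))) (k := 6) (β := Real.exp 6 * b) hs.1.le fun u hu => by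
      have u1 : -τ ≤ u := h1.trans hu.1
      have u2 : u < 0 := hu.2.trans_lt hs.2
      obtain ⟨d, d1, d2⟩ := hder w I A h u ⟨by linarith, u2⟩ _
        (fun p => 6 * SS (unc w) p + 0 * SS (unc w) p) hS
        (((Sm.const _).mul hS).add ((Sm.const _).mul hS)) fun x hx hx0 => by
          have c1 := h.bd u ⟨by linarith, u2.le⟩ x hx hx0
          have c2 := SS_nonneg (unc w) (u, x)
          exact ⟨c2, c1, (heat_SS hF (hI u u1 u2.le) hx0).trans (by nlinarith)⟩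
      rw [mm_lin hF (hI u u1 u2.le) u2 hS hS] at d2
      refine ⟨d, d1, (mul_le_mul_of_nonneg_left (show _ ≤ b by linarith [hLu u u1 u2])
        (Real.exp_pos _).le).trans (mul_le_mul_of_nonneg_right (Real.exp_le_exp.2 ?_) hb0.le)⟩
      linarith
    have a2 : κ ≤ Real.exp (-6 * s) * mm w (SS (unc w)) s :=
      hs'.trans (le_mul_of_one_le_left (hκ.le.trans hs')
        (hexp 6 s (by norm_num) (h1.trans hs.1.le) hs.2.le).1)
    have a3 : Real.exp 6 * b * (s - t) ≤ κ / 2 := by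
      have : Real.exp 6 * b = κ / (2 * 10 ^ 4) := by rw [hb, ← mul_div_assoc, ← mul_assoc, h6, one_mul]
      rw [this]
      nlinarith [hs.1, hs.2]
    have a4 := mul_le_mul_of_nonneg_left (show κ / 2 ≤ Real.exp (-6 * t) * mm w (SS (unc w)) t by
      linarith) (Real.exp_pos (-6)).le
    have a5 := mul_le_of_le_one_left (mm_nonneg hF (hI t h1 h2.le) h2 fun x _ => SS_nonneg (unc w) _)
      (hexp 6 t (by norm_num) h1 h2.le).2
    rw [hb]
    linarith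
  obtain ⟨p, q, hp, hq, hp0, hq0, hn⟩ := exists_pts h h0
  have hn1 : ∑ i, crs p q i ^ 2 ≤ 1 := by
    rw [crs_sq]
    nlinarith [sq_nonneg ⟪p, q⟫, mul_le_one₀ (pow_le_one₀ (n := 2) (norm_nonneg _) hp)
      (sq_nonneg ‖q‖) (pow_le_one₀ (n := 2) (norm_nonneg _) hq)]
  have hT := (sm_flow hF).tl hO (crs p q)
  have hT0 : ∀ u, -τ ≤ u → u < 0 → 0 ≤ mm w (tl (crs p q) (unc w)) u := fun u h1 h2 =>
    mm_nonneg hF (hI u h1 h2.le) h2 fun x hx => tl_nonneg _ (eik_track hF (hI u h1 h2.le) hx)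
  -- lower bound for the weighted tilt
  have hG : ∀ t, -τ ≤ t → t ≤ -τ / 2 → g ≤ mm w (tl (crs p q) (unc w)) t := by
    intro t h1 h2
    have a1 := ode (f := mm w (tl (crs p q) (unc w))) (k := 4) (β := -b) (t := t) (s := -τ / 4)
      (by linarith) fun u hu => by
      have u1 : -τ ≤ u := h1.trans hu.1
      have u2 : u < 0 := hu.2.trans_lt (by linarith)
      obtain ⟨d, d1, d2⟩ := hder w I A h u ⟨by linarith, u2⟩ _
        (fun z => (-2 * ∑ i, crs p q i ^ 2) * SS (unc w) z + 4 * tl (crs p q) (unc w) z) hT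
        (((Sm.const _).mul hS).add ((Sm.const _).mul hT)) fun x hx hx0 => by
          have c1 := h.bd u ⟨by linarith, u2.le⟩ x hx hx0
          have c2 := tl_nonneg (crs p q) (eik_track hF (hI u u1 u2.le) hx0)
          exact ⟨c2, (tl_le _).trans hn1,
            (heat_tl hF (hI u u1 u2.le) hx0 _).trans (by nlinarith)⟩
      rw [mm_lin hF (hI u u1 u2.le) u2 hS hT] at d2
      have c3 := mul_le_mul hn (hm u u1 u2) (by positivity) (by linarith)
      refine ⟨d, d1, (mul_le_mul_of_nonneg_left (show _ ≤ -b by linarith [hLu u u1 u2])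
        (Real.exp_pos _).le).trans ?_⟩
      nlinarith [(hexp 4 u (by norm_num) u1 u2.le).1]
    have a2 := mul_nonneg (Real.exp_pos (-4 * (-τ / 4))).le (hT0 (-τ / 4) (by linarith) (by linarith))
    have a4 := mul_le_mul_of_nonneg_left
      (show b * (τ / 4) ≤ Real.exp (-4 * t) * mm w (tl (crs p q) (unc w)) t by nlinarith)
      (Real.exp_pos (-4)).le
    have a5 := mul_le_of_le_one_left (hT0 t h1 (by linarith))
      (hexp 4 t (by norm_num) h1 (by linarith)).2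
    rw [hg]
    linarith
  have hsub : Ioo (-τ) (-τ / 2) ⊆ I ∩ Iio 0 := fun u hu =>
    ⟨hI u hu.1.le (by linarith [hu.2]), show u < 0 by linarith [hu.2]⟩
  have hdis : ∀ z : E3, ‖z‖ ≤ 1 → w 0 z = 0 →
      ∫⁻ t in Ioo (-τ) (-τ / 2), dis w z 0 t ≤ ENNReal.ofReal (g * τ / (12 * C)) := fun z hz hz0 =>
    (lintegral_mono_set (Ioo_subset_Ioo_left (by linarith))).trans
      (dis_small hM h.toIsARFlow (t₁ := -1) (hI 0 (by linarith) le_rfl)
        (h.sub ⟨le_rfl, by norm_num⟩) (by linarith) (by linarith) hz0 (by positivity)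
        (by simpa using hd z hz hz0))
  have a1 : ∫⁻ _ in Ioo (-τ) (-τ / 2), ENNReal.ofReal g ≤ ∫⁻ t in Ioo (-τ) (-τ / 2),
      ENNReal.ofReal C * (dis w 0 0 t + dis w p 0 t + dis w q 0 t) :=
    setLIntegral_mono' measurableSet_Ioo fun t ht =>
      (ENNReal.ofReal_le_ofReal (hG t ht.1.le ht.2.le)).trans
        (hC ▸ tilt_le h hτ0 (by linarith [ht.1]) ht.2.le hp hq)
  rw [lintegral_const_mul' _ _ ENNReal.ofReal_ne_top, lintegral_add_right' _
    (aemeasurable_dis hF q 0 measurableSet_Ioo hsub), lintegral_add_right' _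
    (aemeasurable_dis hF p 0 measurableSet_Ioo hsub), setLIntegral_const, Real.volume_Ioo,
    ← ENNReal.ofReal_mul hg0.le] at a1
  have a2 := a1.trans (mul_le_mul_right (add_le_add (add_le_add (hdis 0 (by simp) h0)
    (hdis p hp hp0)) (hdis q hq hq0)) _)
  rw [← ENNReal.ofReal_add (by positivity) (by positivity), ← ENNReal.ofReal_add (by positivity)
    (by positivity), ← ENNReal.ofReal_mul hC0.le, ENNReal.ofReal_le_ofReal_iff (by positivity)] at a2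
  have a3 : C * (g * τ / (12 * C) + g * τ / (12 * C) + g * τ / (12 * C)) = g * τ / 4 := by
    field_simp
    ring
  nlinarith [mul_pos hg0 hτ0]

end Vale.Agent.P218UW
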