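import Vale.Agent.P218UA.Defs
import Vale.Agent.P218UG.Stack

/-! Directional derivatives of smooth functions on space-time, and the operators of the flow in
coordinates. -/

open Set Filter Topology
open scoped RealInnerProductSpace ContDiff

namespace Vale.Agent.P218UW

open Vale.Agent.P218UA
open Vale.Agent.P218.H63 (lap hessSq)

/-- space-time -/
abbrev ST := ℝ × E3

/-- the derivative in the direction `v` -/
noncomputable def dv (v : ST) (F : ST → ℝ) : ST → ℝ := fun p => fderiv ℝ F p v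

/-- the unit vectors of space -/
noncomputable def ee (a : Fin 3) : E3 := EuclideanSpace.single a 1

/-- spatial partial derivative -/
noncomputable def dx (a : Fin 3) (F : ST → ℝ) : ST → ℝ := dv (0, ee a) F

/-- time derivative -/
noncomputable def dt (F : ST → ℝ) : ST → ℝ := dv (1, 0) F

/-- smooth on `V` -/
def Sm (V : Set ST) (F : ST → ℝ) : Prop := ContDiffOn ℝ ∞ F V

variable {V : Set ST} {F G : ST → ℝ} {p : ST} {u v : ST}

lemma Sm.at (hV : IsOpen V) (hF : Sm V F) (hp : p ∈ V) : ContDiffAt ℝ ∞ F p :=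
  hF.contDiffAt (hV.mem_nhds hp)

lemma Sm.diffAt (hV : IsOpen V) (hF : Sm V F) (hp : p ∈ V) : DifferentiableAt ℝ F p :=
  (hF.at hV hp).differentiableAt (by simp)

lemma Sm.dv (hV : IsOpen V) (hF : Sm V F) (v : ST) : Sm V (dv v F) :=
  (ContDiffOn.fderiv_of_isOpen hF hV (by simp)).clm_apply contDiffOn_const

lemma Sm.dx (hV : IsOpen V) (hF : Sm V F) (a : Fin 3) : Sm V (dx a F) := hF.dv hV _

lemma Sm.dt (hV : IsOpen V) (hF : Sm V F) : Sm V (dt F) := hF.dv hV _

lemma Sm.mono {V' : Set ST} (hF : Sm V F) (h : V' ⊆ V) : Sm V' F := ContDiffOn.mono hF h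

lemma Sm.add (hF : Sm V F) (hG : Sm V G) : Sm V (fun q => F q + G q) := ContDiffOn.add hF hG

lemma Sm.sub (hF : Sm V F) (hG : Sm V G) : Sm V (fun q => F q - G q) := ContDiffOn.sub hF hG

lemma Sm.mul (hF : Sm V F) (hG : Sm V G) : Sm V (fun q => F q * G q) := ContDiffOn.mul hF hG

lemma Sm.const (c : ℝ) : Sm V (fun _ => c) := contDiffOn_const

lemma Sm.sum {ι : Type*} {s : Finset ι} {f : ι → ST → ℝ} (h : ∀ i ∈ s, Sm V (f i)) :
    Sm V (fun q => ∑ i ∈ s, f i q) := ContDiffOn.sum h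

lemma Sm.congr (hF : Sm V F) (h : EqOn G F V) : Sm V G := ContDiffOn.congr hF h

lemma Sm.cont (hF : Sm V F) : ContinuousOn F V := ContDiffOn.continuousOn hF

lemma dv_congr (hV : IsOpen V) (h : EqOn F G V) (v : ST) : EqOn (dv v F) (dv v G) V := by
  intro p hp
  have : F =ᶠ[𝓝 p] G := Filter.eventually_of_mem (hV.mem_nhds hp) h
  simp only [dv, this.fderiv_eq]

lemma dv_add (hF : DifferentiableAt ℝ F p) (hG : DifferentiableAt ℝ G p) :
    dv v (fun q => F q + G q) p = dv v F p + dv v G p := by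
  simp only [dv]; rw [fderiv_fun_add hF hG]; rfl

lemma dv_sub (hF : DifferentiableAt ℝ F p) (hG : DifferentiableAt ℝ G p) :
    dv v (fun q => F q - G q) p = dv v F p - dv v G p := by
  simp only [dv]; rw [fderiv_fun_sub hF hG]; rfl

lemma dv_mul (hF : DifferentiableAt ℝ F p) (hG : DifferentiableAt ℝ G p) :
    dv v (fun q => F q * G q) p = dv v F p * G p + F p * dv v G p := by
  simp only [dv]; rw [fderiv_fun_mul hF hG]
  simp only [add_apply, smul_apply, smul_eq_mul]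
  ring

lemma dv_const (c : ℝ) : dv v (fun _ => c) p = 0 := by simp [dv]

lemma dv_sum {ι : Type*} {s : Finset ι} {f : ι → ST → ℝ}
    (h : ∀ i ∈ s, DifferentiableAt ℝ (f i) p) :
    dv v (fun q => ∑ i ∈ s, f i q) p = ∑ i ∈ s, dv v (f i) p := by
  simp only [dv]; rw [fderiv_fun_sum h]; simp

lemma dv_comp {g : ℝ → ℝ} {g' : ℝ} (hg : HasDerivAt g g' (F p)) (hF : DifferentiableAt ℝ F p) :
    dv v (fun q => g (F q)) p = g' * dv v F p := by
  have := (hg.comp_hasFDerivAt p hF.hasFDerivAt).fderiv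
  simp only [dv]
  rw [show (fun q => g (F q)) = g ∘ F from rfl, this]
  simp

lemma dv_comm (hV : IsOpen V) (hF : Sm V F) (u v : ST) :
    EqOn (dv u (dv v F)) (dv v (dv u F)) V := by
  intro p hp
  have h2 : DifferentiableAt ℝ (fderiv ℝ F) p :=
    ((hF.at hV hp).fderiv_right (m := 1) (by norm_cast)).differentiableAt (by simp)
  have key : ∀ a b : ST, dv a (dv b F) p = fderiv ℝ (fderiv ℝ F) p a b := by
    intro a b
    have h4 : HasFDerivAt (fun y => fderiv ℝ F y b)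
        ((ContinuousLinearMap.apply ℝ ℝ b).comp (fderiv ℝ (fderiv ℝ F) p)) p :=
      (ContinuousLinearMap.apply ℝ ℝ b).hasFDerivAt.comp p h2.hasFDerivAt
    change fderiv ℝ (fun y => fderiv ℝ F y b) p a = _
    rw [h4.fderiv]; simp
  rw [key, key]
  have h : IsSymmSndFDerivAt ℝ F p := by
    apply ContDiffAt.isSymmSndFDerivAt (hF.at hV hp)
    simp only [minSmoothness_of_isRCLikeNormedField]; norm_cast
  exact h.eq u v

/-- a function which vanishes on a regular level set has no tangential derivative -/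
lemma fderiv_tangent {X : Type*} [NormedAddCommGroup X] [NormedSpace ℝ X] {W G : X → ℝ}
    {p τ n : X} (hW : ContDiffAt ℝ 1 W p) (hG : DifferentiableAt ℝ G p) (h0 : W p = 0)
    (hn : fderiv ℝ W p n ≠ 0) (hτ : fderiv ℝ W p τ = 0)
    (hz : ∀ᶠ q in 𝓝 p, W q = 0 → G q = 0) : fderiv ℝ G p τ = 0 := by
  set L : ℝ × ℝ →L[ℝ] X := (ContinuousLinearMap.fst ℝ ℝ ℝ).smulRight τ
    + (ContinuousLinearMap.snd ℝ ℝ ℝ).smulRight n with hL
  have hLa : ∀ z : ℝ × ℝ, L z = z.1 • τ + z.2 • n := fun z => by simp [hL]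
  have hγ : HasFDerivAt (fun z : ℝ × ℝ => p + L z) L (0, 0) := L.hasFDerivAt.const_add p
  have hγ0 : p + L (0, 0) = p := by simp [hLa]
  have hγc : ContDiffAt ℝ 1 (fun z : ℝ × ℝ => p + L z) (0, 0) :=
    (contDiff_const.add L.contDiff).contDiffAt
  have hW' : ContDiffAt ℝ 1 W (p + L (0, 0)) := by rwa [hγ0]
  have hWd : HasFDerivAt W (fderiv ℝ W p) (p + L (0, 0)) := by
    rw [hγ0]; exact (hW.differentiableAt one_ne_zero).hasFDerivAt
  have hf := hWd.comp ((0 : ℝ), (0 : ℝ)) hγ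
  obtain ⟨φ, hφ, hφ0, hφe⟩ := P218UG.exists_implicit (n := 1) one_ne_zero
    (f := fun z : ℝ × ℝ => W (p + L z)) (p := (0 : ℝ)) (s := 0)
    (ContDiffAt.comp (g := W) (f := fun z : ℝ × ℝ => p + L z) ((0 : ℝ), (0 : ℝ)) hW' hγc)
    (by simp only [hγ0, h0]) (by
      rw [show (fun z : ℝ × ℝ => W (p + L z)) = W ∘ fun z => p + L z from rfl, hf.fderiv]
      simpa [hLa] using hn)
  have hφd := (hφ.differentiableAt one_ne_zero).hasDerivAt
  have hc : HasDerivAt (fun s : ℝ => p + L (s, φ s)) (τ + deriv φ 0 • n) 0 := by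
    have h1 : HasDerivAt (fun s : ℝ => s • τ + φ s • n) ((1 : ℝ) • τ + deriv φ 0 • n) 0 :=
      ((hasDerivAt_id' (0 : ℝ)).smul_const τ).add (hφd.smul_const n)
    simpa [hLa] using h1.const_add p
  have hc0 : p + L (0, φ 0) = p := by rw [hφ0, hγ0]
  have ht : Tendsto (fun s : ℝ => ((s, φ s) : ℝ × ℝ)) (𝓝 0) (𝓝 (0, 0)) := by
    have := (continuousAt_id (x := (0 : ℝ))).prodMk hφ.continuousAt
    simpa [ContinuousAt, hφ0] using this
  have hW0 : ∀ᶠ s in 𝓝 (0 : ℝ), W (p + L (s, φ s)) = 0 :=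
    (ht.eventually hφe).mono fun s hs => hs.2 rfl
  have ht2 : Tendsto (fun s : ℝ => p + L (s, φ s)) (𝓝 0) (𝓝 p) := by
    have := hc.continuousAt
    rwa [ContinuousAt, hc0] at this
  have hG0 : ∀ᶠ s in 𝓝 (0 : ℝ), G (p + L (s, φ s)) = 0 :=
    ((ht2.eventually hz).and hW0).mono fun s hs => hs.1 hs.2
  have e1 : fderiv ℝ W p (τ + deriv φ 0 • n) = 0 := by
    have h1 : HasFDerivAt W (fderiv ℝ W p) (p + L (0, φ 0)) := by
      rw [hc0]; exact (hW.differentiableAt one_ne_zero).hasFDerivAt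
    exact (h1.comp_hasDerivAt (0 : ℝ) hc).unique
      ((hasDerivAt_const (0 : ℝ) (0 : ℝ)).congr_of_eventuallyEq hW0)
  have e2 : fderiv ℝ G p (τ + deriv φ 0 • n) = 0 := by
    have h1 : HasFDerivAt G (fderiv ℝ G p) (p + L (0, φ 0)) := by
      rw [hc0]; exact hG.hasFDerivAt
    exact (h1.comp_hasDerivAt (0 : ℝ) hc).unique
      ((hasDerivAt_const (0 : ℝ) (0 : ℝ)).congr_of_eventuallyEq hG0)
  have e3 : deriv φ 0 = 0 := by
    rw [map_add, map_smul, hτ, zero_add, smul_eq_mul] at e1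
    exact (mul_eq_zero.1 e1).resolve_right hn
  simpa [e3] using e2

/-! ### Coordinates -/

lemma sum_ee (v : E3) : ∑ a, v a • ee a = v := by
  ext b
  simp [ee, Fin.sum_univ_three]
  fin_cases b <;> simp

lemma inner_ee (v : E3) (a : Fin 3) : ⟪v, ee a⟫ = v a := by
  simp [ee, EuclideanSpace.inner_single_right]

lemma inner_eq_sum (v z : E3) : ⟪v, z⟫ = ∑ a, v a * z a := by
  simp [PiLp.inner_apply, mul_comm]

lemma norm_sq_eq_sum (v : E3) : ‖v‖ ^ 2 = ∑ a, v a ^ 2 := by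
  rw [← real_inner_self_eq_norm_sq, inner_eq_sum]; simp [sq]

lemma dv_space (F : ST → ℝ) (p : ST) (v : E3) : dv (0, v) F p = ∑ a, v a * dx a F p := by
  have : ((0, v) : ST) = ∑ a, v a • ((0, ee a) : ST) := by
    ext1
    · simp [Prod.fst_sum]
    · simp [Prod.snd_sum, sum_ee]
  simp only [dx, dv]
  rw [this, map_sum]
  simp only [map_smul, smul_eq_mul]

/-- the function on space-time -/
def unc (f : ℝ → E3 → ℝ) : ST → ℝ := fun p => f p.1 p.2

variable {f : ℝ → E3 → ℝ} {t : ℝ} {x : E3}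

lemma fderiv_slice (h : DifferentiableAt ℝ F (t, x)) (v : E3) :
    fderiv ℝ (fun y => F (t, y)) x v = dv (0, v) F (t, x) := by
  have h1 : HasFDerivAt (fun y : E3 => ((t, y) : ST)) (ContinuousLinearMap.inr ℝ ℝ E3) x :=
    hasFDerivAt_prodMk_right t x
  rw [show (fun y => F (t, y)) = F ∘ fun y : E3 => ((t, y) : ST) from rfl,
    (h.hasFDerivAt.comp x h1).fderiv]
  simp [dv]

lemma gradient_apply (h : DifferentiableAt ℝ (unc f) (t, x)) (a : Fin 3) :
    gradient (f t) x a = dx a (unc f) (t, x) := by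
  rw [← inner_ee, inner_gradient_left]
  exact fderiv_slice h _

lemma deriv_time (h : DifferentiableAt ℝ (unc f) (t, x)) :
    deriv (fun s => f s x) t = dt (unc f) (t, x) := by
  have h1 : HasDerivAt (fun s : ℝ => ((s, x) : ST)) ((1, 0) : ST) t :=
    (hasDerivAt_id' t).prodMk (hasDerivAt_const t x)
  exact (h.hasFDerivAt.comp_hasDerivAt t h1).deriv

lemma hs_apply (hV : IsOpen V) (h : Sm V (unc f)) (hp : (t, x) ∈ V) (v : E3) (a : Fin 3) :
    hs (f t) x v a = ∑ b, v b * dx b (dx a (unc f)) (t, x) := by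
  have hn : ∀ᶠ y in 𝓝 x, (t, y) ∈ V :=
    (Continuous.prodMk_right t).continuousAt.preimage_mem_nhds (hV.mem_nhds hp)
  have hft : ContDiffAt ℝ ∞ (f t) x :=
    (h.at hV hp).comp x (contDiffAt_const.prodMk contDiffAt_id)
  have hg : DifferentiableAt ℝ (gradient (f t)) x := by
    have h1 : DifferentiableAt ℝ (fderiv ℝ (f t)) x :=
      (hft.fderiv_right (m := 1) (by norm_cast)).differentiableAt (by simp)
    exact (InnerProductSpace.toDual ℝ E3).symm.toContinuousLinearEquiv.differentiableAt.comp x h1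
  have h2 : HasFDerivAt (fun y => gradient (f t) y a)
      ((EuclideanSpace.proj a : E3 →L[ℝ] ℝ).comp (hs (f t) x)) x :=
    (EuclideanSpace.proj a : E3 →L[ℝ] ℝ).hasFDerivAt.comp x hg.hasFDerivAt
  have h3 : (fun y => gradient (f t) y a) =ᶠ[𝓝 x] fun y => dx a (unc f) (t, y) :=
    hn.mono fun y hy => gradient_apply (h.diffAt hV hy) a
  have h4 : hs (f t) x v a = fderiv ℝ (fun y => dx a (unc f) (t, y)) x v := by
    rw [← h3.fderiv_eq, h2.fderiv]; rfl
  rw [h4, fderiv_slice ((h.dx hV a).diffAt hV hp), dv_space]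

lemma trace_eq (B : E3 →L[ℝ] E3) : LinearMap.trace ℝ E3 B.toLinearMap = ∑ a, B (ee a) a := by
  rw [LinearMap.trace_eq_sum_inner _ (EuclideanSpace.basisFun (Fin 3) ℝ)]
  refine Finset.sum_congr rfl fun a _ => ?_
  rw [real_inner_comm, EuclideanSpace.basisFun_apply]
  exact inner_ee _ a

lemma sum_ee_mul (a : Fin 3) (g : Fin 3 → ℝ) : ∑ b, ee a b * g b = g a := by
  simp [ee]

lemma hs_ee (hV : IsOpen V) (h : Sm V (unc f)) (hp : (t, x) ∈ V) (a b : Fin 3) :
    hs (f t) x (ee b) a = dx b (dx a (unc f)) (t, x) := by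
  rw [hs_apply hV h hp, sum_ee_mul]

lemma lap_eq (hV : IsOpen V) (h : Sm V (unc f)) (hp : (t, x) ∈ V) :
    lap (f t) x = ∑ a, dx a (dx a (unc f)) (t, x) := by
  rw [lap, trace_eq]
  exact Finset.sum_congr rfl fun a _ => hs_ee hV h hp a a

lemma hessSq_eq (hV : IsOpen V) (h : Sm V (unc f)) (hp : (t, x) ∈ V) :
    hessSq (f t) x = ∑ a, ∑ b, dx a (dx b (unc f)) (t, x) * dx a (dx b (unc f)) (t, x) := by
  rw [hessSq, trace_eq]
  refine Finset.sum_congr rfl fun a _ => ?_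
  change hs (f t) x (hs (f t) x (ee a)) a = _
  rw [hs_apply hV h hp]
  refine Finset.sum_congr rfl fun b _ => ?_
  rw [hs_ee hV h hp, dx, dx, dx, dx, dv_comm hV h _ _ hp]

lemma trT_eq (hV : IsOpen V) (h : Sm V (unc f)) (hp : (t, x) ∈ V) (n : E3) :
    trT n (hs (f t) x) = ∑ a, dx a (dx a (unc f)) (t, x)
      - ∑ a, ∑ b, n a * n b * dx a (dx b (unc f)) (t, x) := by
  rw [trT, trace_eq, inner_eq_sum]
  congr 1
  · exact Finset.sum_congr rfl fun a _ => hs_ee hV h hp a a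
  · rw [Finset.sum_comm]
    refine Finset.sum_congr rfl fun a _ => ?_
    rw [hs_apply hV h hp, Finset.sum_mul]
    exact Finset.sum_congr rfl fun b _ => by ring

/-- the operator norm of the Hessian is bounded by the Hilbert-Schmidt norm -/
lemma norm_hs_sq_le (hV : IsOpen V) (h : Sm V (unc f)) (hp : (t, x) ∈ V) :
    ‖hs (f t) x‖ ^ 2 ≤ hessSq (f t) x := by
  have h0 : 0 ≤ hessSq (f t) x := by
    rw [hessSq_eq hV h hp]
    exact Finset.sum_nonneg fun a _ => Finset.sum_nonneg fun b _ => mul_self_nonneg _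
  rw [← Real.le_sqrt (norm_nonneg _) h0]
  refine ContinuousLinearMap.opNorm_le_bound _ (Real.sqrt_nonneg _) fun v => ?_
  rw [← sq_le_sq₀ (norm_nonneg _) (by positivity), mul_pow, Real.sq_sqrt h0, norm_sq_eq_sum,
    hessSq_eq hV h hp, Finset.sum_comm, Finset.sum_mul]
  refine Finset.sum_le_sum fun a _ => ?_
  rw [hs_apply hV h hp, norm_sq_eq_sum, mul_comm]
  simpa only [sq] using Finset.sum_mul_sq_le_sq_mul_sq Finset.univ (fun b => v b)
    (fun b => dx b (dx a (unc f)) (t, x))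

end Vale.Agent.P218UW
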