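import Vale.Agent.P218UW.Dv

/-! Evolution of the unit normal and of the second fundamental form along a flow given by a signed
distance function. -/

open Set Filter Topology
open scoped RealInnerProductSpace ContDiff

namespace Vale.Agent.P218UW

open Vale.Agent.P218UA
open Vale.Agent.P218.H63 (lap hessSq)

variable {V : Set ST} {W F G : ST → ℝ} {p : ST}

/-- the heat operator of the flow in coordinates -/
noncomputable def HH (W G : ST → ℝ) (p : ST) : ℝ :=
  dt G p - (∑ a, dx a (dx a G) p - ∑ a, ∑ b, dx a W p * dx b W p * dx a (dx b G) p)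

/-- the scalar product of the tangential gradients -/
noncomputable def GG (W F G : ST → ℝ) (p : ST) : ℝ :=
  ∑ a, dx a F p * dx a G p - (∑ a, dx a W p * dx a F p) * ∑ a, dx a W p * dx a G p

lemma dx_mul (hV : IsOpen V) (hF : Sm V F) (hG : Sm V G) (hp : p ∈ V) (a : Fin 3) :
    dx a (fun q => F q * G q) p = dx a F p * G p + F p * dx a G p :=
  dv_mul (hF.diffAt hV hp) (hG.diffAt hV hp)

lemma dx_add (hV : IsOpen V) (hF : Sm V F) (hG : Sm V G) (hp : p ∈ V) (a : Fin 3) :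
    dx a (fun q => F q + G q) p = dx a F p + dx a G p :=
  dv_add (hF.diffAt hV hp) (hG.diffAt hV hp)

lemma dx_sub (hV : IsOpen V) (hF : Sm V F) (hG : Sm V G) (hp : p ∈ V) (a : Fin 3) :
    dx a (fun q => F q - G q) p = dx a F p - dx a G p :=
  dv_sub (hF.diffAt hV hp) (hG.diffAt hV hp)

lemma dx_sum {ι : Type*} {s : Finset ι} {f : ι → ST → ℝ} (hV : IsOpen V) (h : ∀ i, Sm V (f i))
    (hp : p ∈ V) (a : Fin 3) :
    dx a (fun q => ∑ i ∈ s, f i q) p = ∑ i ∈ s, dx a (f i) p :=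
  dv_sum fun i _ => (h i).diffAt hV hp

lemma dx_congr (hV : IsOpen V) (h : EqOn F G V) (a : Fin 3) : EqOn (dx a F) (dx a G) V :=
  dv_congr hV h _

lemma dx_comm (hV : IsOpen V) (hF : Sm V F) (a b : Fin 3) :
    EqOn (dx a (dx b F)) (dx b (dx a F)) V := dv_comm hV hF _ _

lemma dt_dx (hV : IsOpen V) (hF : Sm V F) (a : Fin 3) :
    EqOn (dt (dx a F)) (dx a (dt F)) V := dv_comm hV hF _ _

lemma dx_zero (hV : IsOpen V) (h : ∀ q ∈ V, F q = 0) (hp : p ∈ V) (a : Fin 3) : dx a F p = 0 := by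
  rw [dx_congr hV (G := fun _ => 0) h a hp]; exact dv_const 0

lemma dxx_mul (hV : IsOpen V) (hF : Sm V F) (hG : Sm V G) (hp : p ∈ V) (a b : Fin 3) :
    dx a (dx b fun q => F q * G q) p = dx a (dx b F) p * G p + dx b F p * dx a G p
      + (dx a F p * dx b G p + F p * dx a (dx b G) p) := by
  rw [dx_congr hV (G := fun q => dx b F q * G q + F q * dx b G q)
    (fun q hq => dx_mul hV hF hG hq b) a hp,
    dx_add hV ((hF.dx hV b).mul hG) (hF.mul (hG.dx hV b)) hp, dx_mul hV (hF.dx hV b) hG hp,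
    dx_mul hV hF (hG.dx hV b) hp]

lemma dxx_sum {ι : Type*} {s : Finset ι} {f : ι → ST → ℝ} (hV : IsOpen V) (h : ∀ i, Sm V (f i))
    (hp : p ∈ V) (a b : Fin 3) :
    dx a (dx b fun q => ∑ i ∈ s, f i q) p = ∑ i ∈ s, dx a (dx b (f i)) p := by
  rw [dx_congr hV (G := fun q => ∑ i ∈ s, dx b (f i) q) (fun q hq => dx_sum hV h hq b) a hp,
    dx_sum hV (fun i => (h i).dx hV b) hp]

lemma dxx_sub (hV : IsOpen V) (hF : Sm V F) (hG : Sm V G) (hp : p ∈ V) (a b : Fin 3) :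
    dx a (dx b fun q => F q - G q) p = dx a (dx b F) p - dx a (dx b G) p := by
  rw [dx_congr hV (G := fun q => dx b F q - dx b G q) (fun q hq => dx_sub hV hF hG hq b) a hp,
    dx_sub hV (hF.dx hV b) (hG.dx hV b) hp]

lemma HH_congr (hV : IsOpen V) (h : EqOn F G V) (hp : p ∈ V) : HH W F p = HH W G p := by
  have h1 : dt F p = dt G p := dv_congr hV h _ hp
  have h2 : ∀ a b, dx a (dx b F) p = dx a (dx b G) p := fun a b =>
    dx_congr hV (dx_congr hV h b) a hp
  simp only [HH, h1, h2]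

lemma HH_mul (hV : IsOpen V) (hF : Sm V F) (hG : Sm V G) (hp : p ∈ V) :
    HH W (fun q => F q * G q) p = F p * HH W G p + G p * HH W F p - 2 * GG W F G p := by
  have h1 : dt (fun q => F q * G q) p = dt F p * G p + F p * dt G p :=
    dv_mul (hF.diffAt hV hp) (hG.diffAt hV hp)
  simp only [HH, GG, h1, dxx_mul hV hF hG hp, Fin.sum_univ_three]
  ring

lemma HH_sum {ι : Type*} {s : Finset ι} {f : ι → ST → ℝ} (hV : IsOpen V) (h : ∀ i, Sm V (f i))
    (hp : p ∈ V) : HH W (fun q => ∑ i ∈ s, f i q) p = ∑ i ∈ s, HH W (f i) p := by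
  have h1 : dt (fun q => ∑ i ∈ s, f i q) p = ∑ i ∈ s, dt (f i) p :=
    dv_sum fun i _ => (h i).diffAt hV hp
  simp only [HH, h1, dxx_sum hV h hp, Fin.sum_univ_three, Finset.sum_sub_distrib,
    Finset.sum_add_distrib, Finset.mul_sum]

lemma HH_sub (hV : IsOpen V) (hF : Sm V F) (hG : Sm V G) (hp : p ∈ V) :
    HH W (fun q => F q - G q) p = HH W F p - HH W G p := by
  have h1 : dt (fun q => F q - G q) p = dt F p - dt G p :=
    dv_sub (hF.diffAt hV hp) (hG.diffAt hV hp)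
  simp only [HH, h1, dxx_sub hV hF hG hp, Fin.sum_univ_three]
  ring

lemma dx_const (c : ℝ) (a : Fin 3) : dx a (fun _ => c) = fun _ => 0 := by
  ext q; exact dv_const c

lemma HH_const (c : ℝ) : HH W (fun _ => c) p = 0 := by
  have h1 : dt (fun _ => c) p = 0 := dv_const c
  simp [HH, h1, dx_const]

lemma GG_const (c : ℝ) : GG W (fun _ => c) G p = 0 := by
  simp [GG, dx_const]

lemma GG_self_nonneg (h : ∑ a, dx a W p ^ 2 = 1) : 0 ≤ GG W F F p := by
  have := Finset.sum_mul_sq_le_sq_mul_sq Finset.univ (fun a => dx a W p) (fun a => dx a F p)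
  rw [h, one_mul] at this
  simp only [GG]
  simp only [sq] at this
  linarith

/-- the eikonal equation and the flow equation on the open set `V` -/
structure Eik (V : Set ST) (W : ST → ℝ) : Prop where
  isOpen : IsOpen V
  sm : Sm V W
  eik : ∀ q ∈ V, ∑ a, dx a W q ^ 2 = 1
  eqn : ∀ q ∈ V, W q = 0 → dt W q = ∑ a, dx a (dx a W) q

/-- the square of the norm of the second fundamental form -/
noncomputable def SS (W : ST → ℝ) : ST → ℝ := fun q =>
  ∑ a, ∑ b, dx a (dx b W) q * dx a (dx b W) q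

/-- the defect in the heat equation -/
noncomputable def qq (W : ST → ℝ) : ST → ℝ := fun q => dt W q - ∑ a, dx a (dx a W) q

lemma Sm.SS (hV : IsOpen V) (h : Sm V W) : Sm V (SS W) :=
  Sm.sum fun a _ => Sm.sum fun b _ => ((h.dx hV b).dx hV a).mul ((h.dx hV b).dx hV a)

lemma Sm.qq (hV : IsOpen V) (h : Sm V W) : Sm V (qq W) :=
  (h.dt hV).sub (Sm.sum fun a _ => (h.dx hV a).dx hV a)

lemma SS_nonneg (W : ST → ℝ) (q : ST) : 0 ≤ SS W q :=
  Finset.sum_nonneg fun _ _ => Finset.sum_nonneg fun _ _ => mul_self_nonneg _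

namespace Eik

variable (h : Eik V W)
include h

lemma s1 (a : Fin 3) : Sm V (dx a W) := h.sm.dx h.isOpen a
lemma s2 (a b : Fin 3) : Sm V (dx a (dx b W)) := (h.s1 b).dx h.isOpen a
lemma s3 (a b c : Fin 3) : Sm V (dx a (dx b (dx c W))) := (h.s2 b c).dx h.isOpen a

lemma c2 (hp : p ∈ V) (a b : Fin 3) : dx a (dx b W) p = dx b (dx a W) p :=
  dx_comm h.isOpen h.sm a b hp

lemma c3a (hp : p ∈ V) (a b c : Fin 3) : dx a (dx b (dx c W)) p = dx b (dx a (dx c W)) p :=
  dx_comm h.isOpen (h.s1 c) a b hp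

lemma c3b (hp : p ∈ V) (a b c : Fin 3) : dx a (dx b (dx c W)) p = dx a (dx c (dx b W)) p :=
  dx_congr h.isOpen (dx_comm h.isOpen h.sm b c) a hp

lemma c4a (hp : p ∈ V) (a b c d : Fin 3) :
    dx a (dx b (dx c (dx d W))) p = dx b (dx a (dx c (dx d W))) p :=
  dx_comm h.isOpen (h.s2 c d) a b hp

lemma c4b (hp : p ∈ V) (a b c d : Fin 3) :
    dx a (dx b (dx c (dx d W))) p = dx a (dx c (dx b (dx d W))) p :=
  dx_congr h.isOpen (fun _ hq => h.c3a hq b c d) a hp

lemma c4c (hp : p ∈ V) (a b c d : Fin 3) :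
    dx a (dx b (dx c (dx d W))) p = dx a (dx b (dx d (dx c W))) p :=
  dx_congr h.isOpen (fun _ hq => h.c3b hq b c d) a hp

/-- first derivative of the eikonal equation -/
lemma e1 (v : ST) (hp : p ∈ V) : ∑ c, dx c W p * dv v (dx c W) p = 0 := by
  have h1 : EqOn (fun q => ∑ c, dx c W q * dx c W q) (fun _ => 1) V := fun q hq => by
    simpa only [sq] using h.eik q hq
  have h2 := dv_congr h.isOpen h1 v hp
  rw [dv_const, dv_sum fun c _ => ((h.s1 c).mul (h.s1 c)).diffAt h.isOpen hp] at h2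
  simp only [dv_mul ((h.s1 _).diffAt h.isOpen hp) ((h.s1 _).diffAt h.isOpen hp),
    Fin.sum_univ_three] at h2 ⊢
  linarith

lemma e1x (hp : p ∈ V) (b : Fin 3) : ∑ c, dx c W p * dx b (dx c W) p = 0 := h.e1 _ hp

lemma e1x' (hp : p ∈ V) (b : Fin 3) : ∑ c, dx c W p * dx c (dx b W) p = 0 := by
  simp only [fun c => h.c2 hp c b]; exact h.e1x hp b

lemma e2 (hp : p ∈ V) (a b : Fin 3) :
    ∑ c, (dx a (dx c W) p * dx b (dx c W) p + dx c W p * dx a (dx b (dx c W)) p) = 0 := by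
  have h2 := dx_zero h.isOpen (fun q hq => h.e1x hq b) hp a
  rw [dx_sum h.isOpen (fun c => (h.s1 c).mul (h.s2 b c)) hp] at h2
  simpa only [dx_mul h.isOpen (h.s1 _) (h.s2 _ _) hp] using h2

lemma e2' (hp : p ∈ V) (a b : Fin 3) :
    ∑ d, dx d W p * dx d (dx a (dx b W)) p = -∑ c, dx a (dx c W) p * dx b (dx c W) p := by
  have h1 := h.e2 hp a b
  have h2 : ∀ d, dx d (dx a (dx b W)) p = dx a (dx b (dx d W)) p := fun d => by
    rw [h.c3a hp d a b, h.c3b hp a d b]
  simp only [h2, Fin.sum_univ_three] at h1 ⊢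
  linarith

lemma e3 (hp : p ∈ V) (d a b : Fin 3) :
    ∑ c, (dx d (dx a (dx c W)) p * dx b (dx c W) p + dx a (dx c W) p * dx d (dx b (dx c W)) p
      + (dx d (dx c W) p * dx a (dx b (dx c W)) p
        + dx c W p * dx d (dx a (dx b (dx c W))) p)) = 0 := by
  have h2 := dx_zero h.isOpen (fun q hq => h.e2 hq a b) hp d
  rw [dx_sum h.isOpen (fun c => ((h.s2 a c).mul (h.s2 b c)).add ((h.s1 c).mul (h.s3 a b c))) hp]
    at h2
  simpa only [dx_add h.isOpen ((h.s2 _ _).mul (h.s2 _ _)) ((h.s1 _).mul (h.s3 _ _ _)) hp,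
    dx_mul h.isOpen (h.s2 _ _) (h.s2 _ _) hp, dx_mul h.isOpen (h.s1 _) (h.s3 _ _ _) hp] using h2

/-- tangential derivatives of functions which vanish on the track -/
lemma tang (hp : p ∈ V) (h0 : W p = 0) (hG : Sm V G) (hz : ∀ q ∈ V, W q = 0 → G q = 0)
    (τ : Fin 3 → ℝ) (hτ : ∑ a, τ a * dx a W p = 0) : ∑ a, τ a * dx a G p = 0 := by
  have e : ∀ (c : Fin 3 → ℝ) (F : ST → ℝ),
      fderiv ℝ F p (0, WithLp.toLp 2 c) = ∑ a, c a * dx a F p := fun c F => dv_space F p _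
  rw [← e]
  refine fderiv_tangent (W := W) (n := (0, WithLp.toLp 2 fun a => dx a W p))
    ((h.sm.at h.isOpen hp).of_le (by simp)) (hG.diffAt h.isOpen hp) h0 ?_ (by rw [e, hτ])
    (Filter.eventually_of_mem (h.isOpen.mem_nhds hp) hz)
  rw [e]
  have := h.eik p hp
  simp only [sq] at this
  rw [this]; exact one_ne_zero

lemma dx_qq (hp : p ∈ V) (b : Fin 3) :
    dx b (qq W) p = dt (dx b W) p - ∑ a, dx a (dx a (dx b W)) p := by
  unfold qq
  rw [dx_sub h.isOpen (h.sm.dt h.isOpen) (Sm.sum fun a _ => h.s2 a a) hp,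
    dx_sum h.isOpen (fun a => h.s2 a a) hp, dt_dx h.isOpen h.sm b hp]
  congr 1
  exact Finset.sum_congr rfl fun a _ => by rw [h.c3a hp b a a, h.c3b hp a b a]

/-- the gradient of the defect on the track -/
lemma grad_qq (hp : p ∈ V) (h0 : W p = 0) (b : Fin 3) : dx b (qq W) p = SS W p * dx b W p := by
  have hn : ∑ c, dx c W p * dx c (qq W) p = SS W p := by
    have h1 : ∑ c, dx c W p * dt (dx c W) p = 0 := h.e1 _ hp
    have h2 := fun a => h.e2 hp a a
    have h20 := h2 0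
    have h21 := h2 1
    have h22 := h2 2
    simp only [h.dx_qq hp, SS, Fin.sum_univ_three] at h1 h20 h21 h22 ⊢
    linear_combination h1 - h20 - h21 - h22
  have he := h.eik p hp
  have ht := h.tang hp h0 (h.sm.qq h.isOpen)
    (fun q hq hq0 => by rw [qq, h.eqn q hq hq0, sub_self])
    (fun a => ee b a - dx b W p * dx a W p) (by
      simp only [sub_mul, Finset.sum_sub_distrib, sum_ee_mul, mul_assoc, ← Finset.mul_sum, ← sq, he]
      ring)
  simp only [sub_mul, Finset.sum_sub_distrib, sum_ee_mul, mul_assoc, ← Finset.mul_sum, hn] at ht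
  linarith

/-- evolution of the unit normal -/
lemma HH_dx (hp : p ∈ V) (h0 : W p = 0) (b : Fin 3) : HH W (dx b W) p = SS W p * dx b W p := by
  have h1 := h.grad_qq hp h0 b
  rw [h.dx_qq hp] at h1
  have h2 : ∀ c, ∑ d, dx d W p * dx d (dx c (dx b W)) p
      = -∑ e, dx c (dx e W) p * dx b (dx e W) p := fun c => h.e2' hp c b
  have h3 := fun e => h.e1x' hp e
  have h4 : ∀ a c, dx a (dx c (dx b W)) p = dx c (dx a (dx b W)) p := fun a c => h.c3a hp a c b
  have h20 := h2 0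
  have h21 := h2 1
  have h22 := h2 2
  have h30 := h3 0
  have h31 := h3 1
  have h32 := h3 2
  simp only [HH, Fin.sum_univ_three] at h1 h20 h21 h22 h30 h31 h32 ⊢
  linear_combination h1 + dx 0 W p * h20 + dx 1 W p * h21 + dx 2 W p * h22
    - dx b (dx 0 W) p * h30 - dx b (dx 1 W) p * h31 - dx b (dx 2 W) p * h32

lemma HH_dxx (hp : p ∈ V) (a b : Fin 3) : HH W (dx a (dx b W)) p = dx a (dx b (qq W)) p
    + (∑ c, (∑ e, dx a (dx e W) p * dx c (dx e W) p) * dx b (dx c W) p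
      + ∑ c, dx a (dx c W) p * ∑ e, dx b (dx e W) p * dx c (dx e W) p) := by
  have h1 : dx a (dx b (qq W)) p
      = dt (dx a (dx b W)) p - ∑ c, dx c (dx c (dx a (dx b W))) p := by
    rw [dx_congr h.isOpen (fun q hq => h.dx_qq hq b) a hp,
      dx_sub h.isOpen ((h.s1 b).dt h.isOpen) (Sm.sum fun c _ => h.s3 c c b) hp,
      dx_sum h.isOpen (fun c => h.s3 c c b) hp, dt_dx h.isOpen (h.s1 b) a hp]
    congr 1
    exact Finset.sum_congr rfl fun c _ => by rw [h.c4a hp a c c b, h.c4b hp c a c b]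
  have h4 : ∀ c d, dx c (dx d (dx a (dx b W))) p = dx d (dx a (dx b (dx c W))) p := fun c d => by
    rw [h.c4a hp c d a b, h.c4b hp d c a b, h.c4c hp d a c b]
  have h30 := h.e3 hp 0 a b
  have h31 := h.e3 hp 1 a b
  have h32 := h.e3 hp 2 a b
  have a0 := h.e2' hp a 0
  have a1 := h.e2' hp a 1
  have a2 := h.e2' hp a 2
  have b0 := h.e2' hp b 0
  have b1 := h.e2' hp b 1
  have b2 := h.e2' hp b 2
  have c0 := h.e1x' hp 0
  have c1 := h.e1x' hp 1
  have c2 := h.e1x' hp 2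
  rw [h1, HH]
  have h5 : ∑ c, ∑ d, dx c W p * dx d W p * dx c (dx d (dx a (dx b W))) p
      = ∑ c, ∑ d, dx c W p * dx d W p * dx d (dx a (dx b (dx c W))) p := by
    simp only [h4]
  rw [h5]
  simp only [Fin.sum_univ_three] at h30 h31 h32 a0 a1 a2 b0 b1 b2 c0 c1 c2 ⊢
  linear_combination dx 0 W p * h30 + dx 1 W p * h31 + dx 2 W p * h32
    - dx b (dx 0 W) p * a0 - dx b (dx 1 W) p * a1 - dx b (dx 2 W) p * a2
    - dx a (dx 0 W) p * b0 - dx a (dx 1 W) p * b1 - dx a (dx 2 W) p * b2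
    - dx a (dx b (dx 0 W)) p * c0 - dx a (dx b (dx 1 W)) p * c1 - dx a (dx b (dx 2 W)) p * c2

lemma hess_qq (hp : p ∈ V) (h0 : W p = 0) :
    ∑ a, ∑ b, dx a (dx b W) p * dx a (dx b (qq W)) p = SS W p * SS W p := by
  have hS := h.sm.SS h.isOpen
  have key : ∀ b, ∑ a, dx a (dx b W) p * (dx a (dx b (qq W)) p
      - (dx a (SS W) p * dx b W p + SS W p * dx a (dx b W) p)) = 0 := by
    intro b
    have hq := (h.sm.qq h.isOpen).dx h.isOpen b
    have ht := h.tang hp h0 (hq.sub (hS.mul (h.s1 b)))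
      (fun q hq hq0 => by rw [h.grad_qq hq hq0, sub_self]) (fun a => dx a (dx b W) p)
      (by simpa only [mul_comm] using h.e1x' hp b)
    simpa only [dx_sub h.isOpen hq (hS.mul (h.s1 b)) hp, dx_mul h.isOpen hS (h.s1 b) hp] using ht
  have k0 := key 0
  have k1 := key 1
  have k2 := key 2
  have c0 := h.e1x hp 0
  have c1 := h.e1x hp 1
  have c2 := h.e1x hp 2
  have hS' : SS W p = ∑ a, ∑ b, dx a (dx b W) p * dx a (dx b W) p := rfl
  simp only [Fin.sum_univ_three] at k0 k1 k2 c0 c1 c2 hS' ⊢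
  linear_combination k0 + k1 + k2 + dx 0 (SS W) p * c0 + dx 1 (SS W) p * c1
    + dx 2 (SS W) p * c2 - SS W p * hS'

/-- evolution of the norm of the second fundamental form -/
theorem HH_SS (hp : p ∈ V) (h0 : W p = 0) : HH W (SS W) p ≤ 6 * SS W p ^ 2 := by
  have h1 : HH W (SS W) p = ∑ a, ∑ b, (2 * (dx a (dx b W) p * HH W (dx a (dx b W)) p)
      - 2 * GG W (dx a (dx b W)) (dx a (dx b W)) p) := by
    unfold SS
    rw [HH_sum h.isOpen (fun a => Sm.sum fun b _ => (h.s2 a b).mul (h.s2 a b)) hp]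
    refine Finset.sum_congr rfl fun a _ => ?_
    rw [HH_sum h.isOpen (fun b => (h.s2 a b).mul (h.s2 a b)) hp]
    refine Finset.sum_congr rfl fun b _ => ?_
    rw [HH_mul h.isOpen (h.s2 a b) (h.s2 a b) hp]; ring
  have h2 : HH W (SS W) p ≤ ∑ a, ∑ b, 2 * (dx a (dx b W) p * HH W (dx a (dx b W)) p) := by
    rw [h1]
    refine Finset.sum_le_sum fun a _ => Finset.sum_le_sum fun b _ => ?_
    linarith [GG_self_nonneg (F := dx a (dx b W)) (h.eik p hp)]
  have h3 := h.hess_qq hp h0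
  have h4 : ∑ a, ∑ c, (∑ e, dx a (dx e W) p * dx c (dx e W) p) ^ 2 ≤ SS W p * SS W p := by
    rw [SS, Finset.sum_mul_sum]
    refine Finset.sum_le_sum fun a _ => Finset.sum_le_sum fun c _ => ?_
    simpa only [sq] using Finset.sum_mul_sq_le_sq_mul_sq Finset.univ (fun e => dx a (dx e W) p)
      (fun e => dx c (dx e W) p)
  have h5 : ∑ a, ∑ b, 2 * (dx a (dx b W) p * HH W (dx a (dx b W)) p)
      = 2 * (∑ a, ∑ b, dx a (dx b W) p * dx a (dx b (qq W)) p)
        + 4 * ∑ a, ∑ c, (∑ e, dx a (dx e W) p * dx c (dx e W) p) ^ 2 := by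
    simp only [h.HH_dxx hp, Fin.sum_univ_three, h.c2 hp 1 0, h.c2 hp 2 0, h.c2 hp 2 1]
    ring
  rw [h5, h3] at h2
  nlinarith

end Eik

/-- the component of the normal in the direction `N` -/
noncomputable def om (N : Fin 3 → ℝ) (W : ST → ℝ) : ST → ℝ := fun q => ∑ a, N a * dx a W q

/-- the tilt with respect to the direction `N` -/
noncomputable def tl (N : Fin 3 → ℝ) (W : ST → ℝ) : ST → ℝ := fun q =>
  ∑ a, N a ^ 2 - om N W q * om N W q

lemma Sm.om (hV : IsOpen V) (h : Sm V W) (N : Fin 3 → ℝ) : Sm V (om N W) :=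
  Sm.sum fun a _ => (Sm.const _).mul (h.dx hV a)

lemma Sm.tl (hV : IsOpen V) (h : Sm V W) (N : Fin 3 → ℝ) : Sm V (tl N W) :=
  (Sm.const _).sub ((h.om hV N).mul (h.om hV N))

lemma tl_nonneg (N : Fin 3 → ℝ) (h : ∑ a, dx a W p ^ 2 = 1) : 0 ≤ tl N W p := by
  have := Finset.sum_mul_sq_le_sq_mul_sq Finset.univ N (fun a => dx a W p)
  rw [h, mul_one, sq] at this
  simp only [tl, om]
  linarith

lemma tl_le (N : Fin 3 → ℝ) : tl N W p ≤ ∑ a, N a ^ 2 := by
  simp only [tl]; linarith [mul_self_nonneg (om N W p)]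

/-- evolution of the tilt -/
theorem Eik.HH_tl (h : Eik V W) (hp : p ∈ V) (h0 : W p = 0) (N : Fin 3 → ℝ) :
    HH W (tl N W) p ≤ -2 * (∑ a, N a ^ 2) * SS W p + 4 * SS W p * tl N W p := by
  have hV := h.isOpen
  have ho := h.sm.om hV N
  have h1 : HH W (om N W) p = SS W p * om N W p := by
    unfold om
    rw [HH_sum hV (fun a => (Sm.const _).mul (h.s1 a)) hp, Finset.mul_sum]
    refine Finset.sum_congr rfl fun a _ => ?_
    rw [HH_mul hV (Sm.const _) (h.s1 a) hp, h.HH_dx hp h0, HH_const, GG_const]; ring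
  have h2 : ∀ a, dx a (om N W) p = ∑ b, N b * dx a (dx b W) p := by
    intro a
    unfold om
    rw [dx_sum hV (fun a => (Sm.const _).mul (h.s1 a)) hp]
    refine Finset.sum_congr rfl fun b _ => ?_
    rw [dx_mul hV (Sm.const _) (h.s1 b) hp, dx_const]; ring
  have he := h.eik p hp
  have h3 : ∀ a, dx a (om N W) p * dx a (om N W) p
      ≤ tl N W p * ∑ b, dx a (dx b W) p * dx a (dx b W) p := by
    intro a
    have e1 : dx a (om N W) p = ∑ b, (N b - om N W p * dx b W p) * dx a (dx b W) p := by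
      have := h.e1x hp a
      rw [h2]
      simp only [Fin.sum_univ_three] at this ⊢
      linear_combination om N W p * this
    have e2 : tl N W p = ∑ b, (N b - om N W p * dx b W p) ^ 2 := by
      have e3 : om N W p = ∑ a, N a * dx a W p := rfl
      simp only [tl, Fin.sum_univ_three] at he e3 ⊢
      linear_combination (-om N W p ^ 2) * he - 2 * om N W p * e3
    rw [e1, e2]
    simpa only [sq] using Finset.sum_mul_sq_le_sq_mul_sq Finset.univ
      (fun b => N b - om N W p * dx b W p) (fun b => dx a (dx b W) p)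
  have h4 : GG W (om N W) (om N W) p ≤ tl N W p * SS W p := by
    have := Finset.sum_le_sum fun a (_ : a ∈ Finset.univ) => h3 a
    rw [← Finset.mul_sum] at this
    have e : SS W p = ∑ a, ∑ b, dx a (dx b W) p * dx a (dx b W) p := rfl
    rw [GG, e]
    linarith [mul_self_nonneg (∑ a, dx a W p * dx a (om N W) p)]
  have h5 : HH W (tl N W) p = -(2 * SS W p * (om N W p * om N W p))
      + 2 * GG W (om N W) (om N W) p := by
    unfold tl
    rw [HH_sub hV (Sm.const _) (ho.mul ho) hp, HH_const, HH_mul hV ho ho hp, h1]; ring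
  have h6 : om N W p * om N W p = ∑ a, N a ^ 2 - tl N W p := by simp [tl]
  rw [h5, h6]
  linarith

/-! ### The flow -/

variable {w f : ℝ → E3 → ℝ} {I : Set ℝ} {t : ℝ} {x : E3}

lemma isOpen_st (hI : IsOpen I) : IsOpen (I ×ˢ (univ : Set E3)) := hI.prod isOpen_univ

lemma sm_flow (h : IsFlow w I) : Sm (I ×ˢ univ) (unc w) := h.smooth

lemma eik_sum (h : IsFlow w I) (ht : t ∈ I) (h1 : ‖gradient (w t) x‖ = 1) :
    ∑ a, dx a (unc w) (t, x) ^ 2 = 1 := by
  have := norm_sq_eq_sum (gradient (w t) x)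
  rw [h1, one_pow] at this
  rw [this]
  exact Finset.sum_congr rfl fun a _ => by
    rw [gradient_apply ((sm_flow h).diffAt (isOpen_st h.isOpen) ⟨ht, mem_univ _⟩)]

lemma eik_track (h : IsFlow w I) (ht : t ∈ I) (h0 : w t x = 0) :
    ∑ a, dx a (unc w) (t, x) ^ 2 = 1 := eik_sum h ht (h.eik t ht x h0).self_of_nhds

lemma exists_eik (h : IsFlow w I) (ht : t ∈ I) (h0 : w t x = 0) :
    ∃ V, (t, x) ∈ V ∧ V ⊆ I ×ˢ univ ∧ Eik V (unc w) := by
  have hU := isOpen_st h.isOpen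
  obtain ⟨V, hV1, hV2, hV3⟩ := eventually_nhds_iff.1 ((h.eik t ht x h0).and
    (hU.mem_nhds (show (t, x) ∈ I ×ˢ (univ : Set E3) from ⟨ht, mem_univ _⟩)))
  have hs : V ⊆ I ×ˢ univ := fun q hq => (hV1 q hq).2
  refine ⟨V, hV3, hs, hV2, (sm_flow h).mono hs, fun q hq => eik_sum h (hs hq).1 (hV1 q hq).1,
    fun q hq hq0 => ?_⟩
  rw [← deriv_time ((sm_flow h).diffAt hU (hs hq)), ← lap_eq hU (sm_flow h) (hs hq)]
  exact h.eqn q.1 (hs hq).1 q.2 hq0

lemma heat_eq (hV : IsOpen V) (hw : Sm V (unc w)) (hf : Sm V (unc f)) (hp : (t, x) ∈ V) :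
    heat w f t x = HH (unc w) (unc f) (t, x) := by
  rw [heat, HH, deriv_time (hf.diffAt hV hp), trT_eq hV hf hp]
  simp only [gradient_apply (hw.diffAt hV hp)]

/-- the function of `(t, x)` -/
def cur (F : ST → ℝ) : ℝ → E3 → ℝ := fun t x => F (t, x)

@[simp] lemma unc_cur (F : ST → ℝ) : unc (cur F) = F := rfl

lemma hessSq_eq_SS (h : IsFlow w I) (ht : t ∈ I) (x : E3) : hessSq (w t) x = SS (unc w) (t, x) :=
  hessSq_eq (isOpen_st h.isOpen) (sm_flow h) ⟨ht, mem_univ _⟩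

/-- `(d/dt - Δ) |A|² ≤ 6 |A|⁴` -/
theorem heat_SS (h : IsFlow w I) (ht : t ∈ I) (h0 : w t x = 0) :
    heat w (cur (SS (unc w))) t x ≤ 6 * SS (unc w) (t, x) ^ 2 := by
  obtain ⟨V, hp, -, hE⟩ := exists_eik h ht h0
  rw [heat_eq (f := cur (SS (unc w))) hE.isOpen hE.sm (hE.sm.SS hE.isOpen) hp]
  exact hE.HH_SS hp h0

/-- `(d/dt - Δ) |A|² ≤ 6 |A|⁴` -/
theorem heat_hessSq (h : IsFlow w I) (ht : t ∈ I) (h0 : w t x = 0) :
    heat w (fun s => hessSq (w s)) t x ≤ 6 * hessSq (w t) x ^ 2 := by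
  obtain ⟨V, hp, hs, hE⟩ := exists_eik h ht h0
  have he : EqOn (unc fun s => hessSq (w s)) (SS (unc w)) V := fun q hq =>
    hessSq_eq_SS h (hs hq).1 q.2
  rw [heat_eq hE.isOpen hE.sm ((hE.sm.SS hE.isOpen).congr he) hp, HH_congr hE.isOpen he hp,
    hessSq_eq_SS h ht]
  exact hE.HH_SS hp h0

/-- `(d/dt - Δ) ⟨ν, n⟩ = |A|² ⟨ν, n⟩` -/
theorem heat_inner (h : IsFlow w I) (ht : t ∈ I) (h0 : w t x = 0) (n : E3) :
    heat w (fun s y => ⟪gradient (w s) y, n⟫) t x = hessSq (w t) x * ⟪gradient (w t) x, n⟫ := by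
  obtain ⟨V, hp, hs, hE⟩ := exists_eik h ht h0
  have hV := hE.isOpen
  have he : EqOn (unc fun s y => ⟪gradient (w s) y, n⟫)
      (fun q => ∑ a, n a * dx a (unc w) q) V := fun q hq => by
    simp only [unc, inner_eq_sum, gradient_apply (t := q.1) (x := q.2) (hE.sm.diffAt hV hq)]
    exact Finset.sum_congr rfl fun a _ => mul_comm _ _
  have hsm : Sm V fun q => ∑ a, n a * dx a (unc w) q := hE.sm.om hV n
  rw [heat_eq hV hE.sm (hsm.congr he) hp, HH_congr hV he hp, hessSq_eq_SS h ht,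
    HH_sum hV (fun a => (Sm.const _).mul (hE.s1 a)) hp]
  have := he hp
  simp only [unc] at this
  rw [this, Finset.mul_sum]
  refine Finset.sum_congr rfl fun a _ => ?_
  rw [HH_mul hV (Sm.const _) (hE.s1 a) hp, hE.HH_dx hp h0, HH_const, GG_const]; ring

theorem heat_tl (h : IsFlow w I) (ht : t ∈ I) (h0 : w t x = 0) (N : Fin 3 → ℝ) :
    heat w (cur (tl N (unc w))) t x ≤ -2 * (∑ a, N a ^ 2) * SS (unc w) (t, x)
      + 4 * SS (unc w) (t, x) * tl N (unc w) (t, x) := by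
  obtain ⟨V, hp, -, hE⟩ := exists_eik h ht h0
  rw [heat_eq (f := cur (tl N (unc w))) hE.isOpen hE.sm (hE.sm.tl hE.isOpen N) hp]
  exact hE.HH_tl hp h0 N

end Vale.Agent.P218UW
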