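import Vale.Agent.P218UM.Heat

/-! The backward heat kernel and the localised weight. -/

open MeasureTheory Set Filter Topology Metric
open scoped RealInnerProductSpace ContDiff

namespace Vale.Agent.P218UW

open Vale.Agent.P218UA Vale.Agent.P218UM
open Vale.Agent.P218.H63 (lap hessSq)

/-- the backward heat kernel centred at the space-time origin -/
noncomputable def Ph (t : ℝ) (x : E3) : ℝ := Real.exp (-‖x‖ ^ 2 / (4 * -t)) / (4 * Real.pi * -t)

lemma Ph_pos {t : ℝ} (ht : t < 0) (x : E3) : 0 < Ph t x := by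
  have := neg_pos.2 ht
  unfold Ph; positivity

lemma contDiffAt_Ph {t : ℝ} (ht : t < 0) (x : E3) {n : WithTop ℕ∞} :
    ContDiffAt ℝ n (fun p : ℝ × E3 => Ph p.1 p.2) (t, x) := by
  have h1 : (4 * -t) ≠ 0 := by linarith
  have h2 : 4 * Real.pi * -t ≠ 0 := (mul_pos (by positivity) (neg_pos.2 ht)).ne'
  have h3 : ContDiffAt ℝ n (fun p : ℝ × E3 => ‖p.2‖ ^ 2) (t, x) :=
    (contDiff_norm_sq ℝ).contDiffAt.comp _ contDiffAt_snd
  exact (Real.contDiff_exp.contDiffAt.comp _ (h3.neg.div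
    (contDiffAt_const.mul contDiffAt_fst.neg) h1)).div
    (contDiffAt_const.mul contDiffAt_fst.neg) h2

lemma hasDerivAt_Ph {t : ℝ} (ht : t < 0) (x : E3) :
    HasDerivAt (fun s => Ph s x) (Ph t x * (-‖x‖ ^ 2 / (4 * t ^ 2) - 1 / t)) t := by
  have h0 : t ≠ 0 := ht.ne
  have h1 : (4 * -t) ≠ 0 := by linarith
  have h2 : 4 * Real.pi * -t ≠ 0 := (mul_pos (by positivity) (neg_pos.2 ht)).ne'
  have h3 := ((hasDerivAt_const t (-‖x‖ ^ 2)).div ((hasDerivAt_id' t).neg.const_mul 4) h1).exp.div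
    ((hasDerivAt_id' t).neg.const_mul (4 * Real.pi)) h2
  refine HasDerivAt.congr_deriv (f := fun s => Ph s x) h3 ?_
  have := Real.pi_pos.ne'
  simp only [Ph, Pi.div_apply, Pi.neg_apply]
  field_simp
  ring

lemma Ph_prof {t : ℝ} (ht : t < 0) (s : ℝ) :
    HasDerivAt (fun s : ℝ => Real.exp (-s / (4 * -t)) / (4 * Real.pi * -t))
      (1 / (4 * t) * (Real.exp (-s / (4 * -t)) / (4 * Real.pi * -t))) s := by
  have h0 : t ≠ 0 := ht.ne
  have h3 := (((hasDerivAt_id' s).neg.div_const (4 * -t)).exp).div_const (4 * Real.pi * -t)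
  refine HasDerivAt.congr_deriv h3 ?_
  have := Real.pi_pos.ne'
  simp only [Pi.neg_apply]
  field_simp

lemma gradient_Ph {t : ℝ} (ht : t < 0) (x : E3) : gradient (Ph t) x = (Ph t x / (2 * t)) • x := by
  have h0 : t ≠ 0 := ht.ne
  have := gradient_comp (F := fun s : ℝ => Real.exp (-s / (4 * -t)) / (4 * Real.pi * -t))
    (u := fun y : E3 => ‖y‖ ^ 2) (x := x) (Ph_prof ht _).differentiableAt
    ((contDiff_norm_sq ℝ (n := 1)).differentiable one_ne_zero x)
  rw [(Ph_prof ht _).deriv, gradient_norm_sq, smul_smul] at this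
  refine this.trans ?_
  congr 1
  simp only [Ph]
  field_simp
  ring

lemma trT_Ph {t : ℝ} (ht : t < 0) (x : E3) {n : E3} (hn : ‖n‖ = 1) :
    trT n (hs (Ph t) x) = Ph t x * (1 / t + (‖x‖ ^ 2 - ⟪x, n⟫ ^ 2) / (4 * t ^ 2)) := by
  have h0 : t ≠ 0 := ht.ne
  have hF : ContDiff ℝ 2 fun s : ℝ => Real.exp (-s / (4 * -t)) / (4 * Real.pi * -t) :=
    (Real.contDiff_exp.comp (contDiff_id.neg.div_const _)).div_const _
  have := trT_comp (F := fun s : ℝ => Real.exp (-s / (4 * -t)) / (4 * Real.pi * -t))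
    (u := fun y : E3 => ‖y‖ ^ 2) (x := x) hF.contDiffAt (contDiff_norm_sq ℝ).contDiffAt n
  have e : deriv (fun s : ℝ => Real.exp (-s / (4 * -t)) / (4 * Real.pi * -t))
      = fun s => 1 / (4 * t) * (Real.exp (-s / (4 * -t)) / (4 * Real.pi * -t)) :=
    funext fun s => (Ph_prof ht s).deriv
  rw [e, ((Ph_prof ht _).const_mul (1 / (4 * t))).deriv, gradient_norm_sq, trT_norm_sq hn,
    norm_smul, real_inner_smul_left] at this
  refine this.trans ?_
  simp only [Ph, Real.norm_ofNat]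
  field_simp
  ring

/-- Huisken's identity -/
lemma adj_Ph {w : ℝ → E3 → ℝ} {t : ℝ} (ht : t < 0) {x : E3} (hn : ‖gradient (w t) x‖ = 1) :
    adj w Ph t x = -(lap (w t) x + ⟪x, gradient (w t) x⟫ / (2 * t)) ^ 2 * Ph t x := by
  have h0 : t ≠ 0 := ht.ne
  rw [adj, (hasDerivAt_Ph ht x).deriv, trT_Ph ht x hn, gradient_Ph ht x, real_inner_smul_left]
  field_simp
  ring

/-- the cut-off function -/
noncomputable def chi : ContDiffBump (0 : E3) := ⟨1 / 2, 1, by norm_num, by norm_num⟩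

/-- the localised weight -/
noncomputable def psi (t : ℝ) (x : E3) : ℝ := chi x * Ph t x

lemma chi_zero {x : E3} (h : 1 ≤ ‖x‖) : chi x = 0 :=
  chi.zero_of_le_dist (by simpa [chi] using h)

lemma psi_nonneg {t : ℝ} (ht : t < 0) (x : E3) : 0 ≤ psi t x :=
  mul_nonneg chi.nonneg (Ph_pos ht x).le

lemma psi_le {t : ℝ} (ht : t < 0) (x : E3) : psi t x ≤ Ph t x :=
  mul_le_of_le_one_left (Ph_pos ht x).le chi.le_one

lemma psi_zero (t : ℝ) {x : E3} (h : 1 ≤ ‖x‖) : psi t x = 0 := by rw [psi, chi_zero h, zero_mul]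

lemma contDiffAt_psi {t : ℝ} (ht : t < 0) (x : E3) {n : ℕ∞} :
    ContDiffAt ℝ n (fun p : ℝ × E3 => psi p.1 p.2) (t, x) :=
  (chi.contDiff.contDiffAt.comp _ contDiffAt_snd).mul (contDiffAt_Ph ht x)

lemma adj_psi {w : ℝ → E3 → ℝ} {t : ℝ} (ht : t < 0) (x : E3) :
    adj w psi t x = chi x * adj w Ph t x
      + Ph t x * (trT (gradient (w t) x) (hs chi x)
        - 2 * lap (w t) x * ⟪gradient chi x, gradient (w t) x⟫)
      + 2 * (⟪gradient chi x, gradient (Ph t) x⟫
        - ⟪gradient chi x, gradient (w t) x⟫ * ⟪gradient (Ph t) x, gradient (w t) x⟫) := by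
  have h1 : ContDiffAt ℝ 2 chi x := (chi.contDiff (n := 2)).contDiffAt
  have h2 : ContDiffAt ℝ 2 (Ph t) x := slice_x (f := Ph) (contDiffAt_Ph ht x)
  have h3 : deriv (fun s => psi s x) t = chi x * deriv (fun s => Ph s x) t :=
    deriv_const_mul _ (hasDerivAt_Ph ht x).differentiableAt
  have e : psi t = fun y => chi y * Ph t y := rfl
  simp only [adj]
  rw [h3, e, trT_mul h1 h2, gradient_mul (h1.differentiableAt (by norm_num))
    (h2.differentiableAt (by norm_num)), inner_add_left, real_inner_smul_left,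
    real_inner_smul_left]
  ring

lemma const_germ {f : E3 → ℝ} {x : E3} {c : ℝ} (h : f =ᶠ[𝓝 x] fun _ => c) :
    gradient f x = 0 ∧ hs f x = 0 := by
  have h3 : gradient f =ᶠ[𝓝 x] gradient fun _ : E3 => c := h.gradient
  have h4 : gradient (fun _ : E3 => c) = fun _ => 0 := by ext1 y; simp
  rw [h4] at h3
  exact ⟨h3.eq_of_nhds, by rw [hs, h3.fderiv_eq]; simp⟩

lemma abs_trT_le {n : E3} (hn : ‖n‖ = 1) (B : E3 →L[ℝ] E3) : |trT n B| ≤ 4 * ‖B‖ := by
  have key : ∀ v : E3, ‖v‖ = 1 → |⟪B v, v⟫| ≤ ‖B‖ := fun v hv => by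
    have := (abs_real_inner_le_norm (B v) v).trans
      (mul_le_mul_of_nonneg_right (B.le_opNorm v) (norm_nonneg _))
    simpa [hv] using this
  have h0 := abs_le.1 (key (bs 0) (OrthonormalBasis.norm_eq_one _ _))
  have h1 := abs_le.1 (key (bs 1) (OrthonormalBasis.norm_eq_one _ _))
  have h2 := abs_le.1 (key (bs 2) (OrthonormalBasis.norm_eq_one _ _))
  have h3 := abs_le.1 (key n hn)
  rw [trT, P218UM.trace_eq, Fin.sum_univ_three, abs_le]
  constructor <;> linarith [h0.1, h0.2, h1.1, h1.2, h2.1, h2.2, h3.1, h3.2]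

lemma Ph_le {t : ℝ} (ht : t < 0) {x : E3} (hx : 1 / 2 ≤ ‖x‖) : Ph t x ≤ 2048 * t ^ 2 := by
  have hs : 0 < -t := neg_pos.2 ht
  set s := -t with hs'
  have h1 : -‖x‖ ^ 2 / (4 * s) ≤ -(1 / (16 * s)) := by
    have : (1 / 2) ^ 2 ≤ ‖x‖ ^ 2 := pow_le_pow_left₀ (by norm_num) hx 2
    rw [neg_div, neg_le_neg_iff, div_le_div_iff₀ (by positivity) (by positivity)]
    nlinarith
  have h2 := Real.pow_div_factorial_le_exp (1 / (16 * s)) (by positivity) 3
  have h3 : Real.exp (-(1 / (16 * s))) ≤ 24576 * s ^ 3 := by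
    rw [Real.exp_neg, inv_le_comm₀ (Real.exp_pos _) (by positivity)]
    refine le_trans (le_of_eq ?_) h2
    simp only [Nat.factorial, Nat.succ_eq_add_one]
    field_simp
    norm_num
  have h4 : t ^ 2 = s ^ 2 := by rw [hs']; ring
  rw [Ph, ← hs', div_le_iff₀ (by positivity), h4]
  have h5 : 12 * s ≤ 4 * Real.pi * s := by nlinarith [Real.pi_gt_three]
  calc Real.exp (-‖x‖ ^ 2 / (4 * s)) ≤ 24576 * s ^ 3 := (Real.exp_le_exp.2 h1).trans h3
    _ = 2048 * s ^ 2 * (12 * s) := by ring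
    _ ≤ _ := by gcongr

lemma adj_psi_zero {w : ℝ → E3 → ℝ} {t : ℝ} (ht : t < 0) {x : E3} (hx : 1 < ‖x‖) :
    adj w psi t x = 0 := by
  have h1 : (chi : E3 → ℝ) =ᶠ[𝓝 x] fun _ => 0 :=
    (continuous_norm.continuousAt.eventually (lt_mem_nhds hx)).mono fun y hy => chi_zero hy.le
  rw [adj_psi ht, (const_germ h1).1, (const_germ h1).2, chi_zero hx.le]
  simp [trT]

/-- the weight is almost a subsolution of the adjoint equation for small times -/
theorem adj_psi_le : ∃ K : ℝ, 0 ≤ K ∧ ∀ (w : ℝ → E3 → ℝ) (t : ℝ) (x : E3), -1 ≤ t → t < 0 →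
    ‖gradient (w t) x‖ = 1 → ‖x‖ ≤ 1 → |lap (w t) x| ≤ 3 → adj w psi t x ≤ K * -t := by
  have hg : ContDiff ℝ 1 (gradient chi) :=
    (InnerProductSpace.toDual ℝ E3).symm.toContinuousLinearEquiv.contDiff.comp
      ((chi.contDiff (n := 2)).fderiv_right (m := 1) (by norm_num))
  obtain ⟨C₁, hC₁⟩ := (isCompact_closedBall (0 : E3) 1).exists_bound_of_continuousOn
    hg.continuous.continuousOn
  obtain ⟨C₂, hC₂⟩ := (isCompact_closedBall (0 : E3) 1).exists_bound_of_continuousOn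
    (hg.continuous_fderiv one_ne_zero).continuousOn
  have h₁ : 0 ≤ C₁ := (norm_nonneg _).trans (hC₁ 0 (by simp))
  have h₂ : 0 ≤ C₂ := (norm_nonneg _).trans (hC₂ 0 (by simp))
  refine ⟨2048 * (4 * C₂ + 8 * C₁), by positivity, fun w t x ht1 ht hn hx hH => ?_⟩
  have hneg : 0 < -t := neg_pos.2 ht
  have hP := Ph_pos ht x
  have h0 : chi x * adj w Ph t x ≤ 0 := by
    rw [adj_Ph ht hn]
    exact mul_nonpos_of_nonneg_of_nonpos chi.nonneg
      (mul_nonpos_of_nonpos_of_nonneg (neg_nonpos.2 (sq_nonneg _)) hP.le)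
  rw [adj_psi ht]
  rcases lt_or_ge ‖x‖ (1 / 2) with hx' | hx'
  · have h1 : (chi : E3 → ℝ) =ᶠ[𝓝 x] fun _ => 1 :=
      (continuous_norm.continuousAt.eventually (gt_mem_nhds hx')).mono fun y hy =>
        chi.one_of_mem_closedBall (by simpa [chi] using hy.le)
    rw [(const_germ h1).1, (const_germ h1).2]
    have : 0 ≤ 2048 * (4 * C₂ + 8 * C₁) * -t := by positivity
    simp only [trT, ContinuousLinearMap.toLinearMap_zero, map_zero, zero_apply, inner_zero_left]
    linarith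
  · have hb : x ∈ closedBall (0 : E3) 1 := by simpa using hx
    have a1 := hC₁ x hb
    have a2 : |trT (gradient (w t) x) (hs chi x)| ≤ 4 * C₂ :=
      (abs_trT_le hn _).trans (by linarith [show ‖hs chi x‖ ≤ C₂ from hC₂ x hb])
    have a3 : |⟪gradient chi x, gradient (w t) x⟫| ≤ C₁ := by
      have := abs_real_inner_le_norm (gradient chi x) (gradient (w t) x)
      rw [hn, mul_one] at this
      exact this.trans a1
    have a4 : |2 * lap (w t) x * ⟪gradient chi x, gradient (w t) x⟫| ≤ 6 * C₁ := by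
      rw [abs_mul, abs_mul, abs_two]
      nlinarith [abs_nonneg (lap (w t) x), abs_nonneg ⟪gradient chi x, gradient (w t) x⟫]
    have a5 := abs_tan_inner_le hn (gradient chi x) (gradient (Ph t) x)
    have a6 : ‖gradient (Ph t) x‖ ≤ 1024 * -t := by
      rw [gradient_Ph ht, norm_smul, Real.norm_eq_abs, abs_div, abs_of_pos hP,
        abs_of_neg (by linarith : 2 * t < 0)]
      have : Ph t x / -(2 * t) ≤ 1024 * -t := by
        rw [div_le_iff₀ (by linarith)]
        linarith [Ph_le ht hx']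
      exact (mul_le_of_le_one_right (div_nonneg hP.le (by linarith)) hx).trans this
    have a7 : Ph t x ≤ 2048 * -t := (Ph_le ht hx').trans (by nlinarith)
    have b1 : Ph t x * (trT (gradient (w t) x) (hs chi x)
        - 2 * lap (w t) x * ⟪gradient chi x, gradient (w t) x⟫) ≤ 2048 * -t * (4 * C₂ + 6 * C₁) :=
      (mul_le_mul_of_nonneg_left (by linarith [(abs_le.1 a2).2, (abs_le.1 a4).1]) hP.le).trans
        (mul_le_mul_of_nonneg_right a7 (by positivity))
    have b2 : ‖gradient chi x‖ * ‖gradient (Ph t) x‖ ≤ C₁ * (1024 * -t) :=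
      mul_le_mul a1 a6 (norm_nonneg _) h₁
    linarith [(abs_le.1 a5).2]

end Vale.Agent.P218UW
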