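import Vale.Agent.P218UW.Jet
import Vale.Agent.P218UW.Wt
import Vale.Agent.P218UX.Stm

/-! Weighted integrals along a flow with bounded curvature in the unit parabolic cylinder. -/

open MeasureTheory Set Filter Topology Metric
open scoped ENNReal RealInnerProductSpace ContDiff

namespace Vale.Agent.P218UW

open Vale.Agent.P218UA Vale.Agent.P218UM
open Vale.Agent.P218.H63 (lap hessSq)

lemma ode {f : ℝ → ℝ} {k β t s : ℝ} (hts : t ≤ s) (hd : ∀ u ∈ Icc t s, ∃ d, HasDerivAt f d u ∧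
    Real.exp (-k * u) * (d - k * f u) ≤ β) :
    Real.exp (-k * s) * f s - Real.exp (-k * t) * f t ≤ β * (s - t) := by
  have key : ∀ u ∈ Icc t s, ∃ d, HasDerivAt (fun u => Real.exp (-k * u) * f u) d u ∧ d ≤ β := by
    intro u hu
    obtain ⟨d, h1, h2⟩ := hd u hu
    refine ⟨_, (((hasDerivAt_id' u).const_mul (-k)).exp).mul h1, ?_⟩
    linarith
  refine (convex_Icc t s).image_sub_le_mul_sub_of_deriv_le
    (f := fun u => Real.exp (-k * u) * f u) (fun u hu => ?_) (fun u hu => ?_) (fun u hu => ?_)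
    t ⟨le_rfl, hts⟩ s ⟨hts, le_rfl⟩ hts
  · obtain ⟨d, h1, -⟩ := key u hu
    exact h1.continuousAt.continuousWithinAt
  · obtain ⟨d, h1, -⟩ := key u (interior_subset hu)
    exact h1.differentiableAt.differentiableWithinAt
  · obtain ⟨d, h1, h2⟩ := key u (interior_subset hu)
    rwa [h1.deriv]

/-- a flow with `|A|² ≤ 1` in the unit parabolic cylinder -/
structure Cfg (w : ℝ → E3 → ℝ) (I : Set ℝ) (A : ℝ) : Prop extends IsARFlow w I A where
  sub : Icc (-1) 0 ⊆ I
  bd : ∀ t ∈ Icc (-1 : ℝ) 0, ∀ x, ‖x‖ ≤ 1 → w t x = 0 → SS (unc w) (t, x) ≤ 1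

/-- the weighted integral -/
noncomputable def mm (w : ℝ → E3 → ℝ) (F : ST → ℝ) (t : ℝ) : ℝ :=
  ∫ x, psi t x * F (t, x) ∂(ar (w t))

variable {w : ℝ → E3 → ℝ} {I : Set ℝ} {A t : ℝ} {F G : ST → ℝ} {x : E3}

lemma abs_lap_le (h : IsFlow w I) (ht : t ∈ I) (h1 : SS (unc w) (t, x) ≤ 1) :
    |lap (w t) x| ≤ 3 := by
  rw [lap_eq (isOpen_st h.isOpen) (sm_flow h) ⟨ht, mem_univ _⟩]
  have key : ∀ a, |dx a (dx a (unc w)) (t, x)| ≤ 1 := fun a => by
    rw [← sq_le_one_iff_abs_le_one, sq]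
    refine le_trans ?_ h1
    exact (Finset.single_le_sum
      (f := fun b => dx a (dx b (unc w)) (t, x) * dx a (dx b (unc w)) (t, x))
      (fun _ _ => mul_self_nonneg _) (Finset.mem_univ a)).trans (Finset.single_le_sum
        (f := fun a => ∑ b, dx a (dx b (unc w)) (t, x) * dx a (dx b (unc w)) (t, x))
        (fun _ _ => Finset.sum_nonneg fun _ _ => mul_self_nonneg _) (Finset.mem_univ a))
  refine (Finset.abs_sum_le_sum_abs _ _).trans ?_
  rw [Fin.sum_univ_three]
  linarith [key 0, key 1, key 2]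

lemma Sm.cont_slice (hF : Sm (I ×ˢ univ) F) (ht : t ∈ I) : Continuous fun x => F (t, x) :=
  hF.cont.comp_continuous (by fun_prop) fun _ => ⟨ht, mem_univ _⟩

lemma continuous_psi (ht : t < 0) : Continuous (psi t) :=
  continuous_iff_continuousAt.2 fun x =>
    (slice_x (f := psi) (contDiffAt_psi (n := 0) ht x)).continuousAt

lemma integrable_psi (h : IsFlow w I) (ht : t ∈ I) (ht0 : t < 0) (hF : Sm (I ×ˢ univ) F) :
    Integrable (fun x => psi t x * F (t, x)) (ar (w t)) := by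
  have := P218UX.locFin (P218UX.slice h ht)
  refine ((continuous_psi ht0).mul (hF.cont_slice ht)).integrable_of_hasCompactSupport
    (HasCompactSupport.intro (isCompact_closedBall 0 1) fun y hy => ?_)
  rw [mem_closedBall_zero_iff, not_le] at hy
  rw [Pi.mul_apply, psi_zero t hy.le, zero_mul]

lemma ae_track (h : IsFlow w I) (ht : t ∈ I) : ∀ᵐ x ∂(ar (w t)), w t x = 0 :=
  P218UX.ae_ar (P218UX.slice h ht).smooth.continuous

lemma mm_nonneg (h : IsFlow w I) (ht : t ∈ I) (ht0 : t < 0)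
    (h0 : ∀ x, w t x = 0 → 0 ≤ F (t, x)) : 0 ≤ mm w F t :=
  integral_nonneg_of_ae ((ae_track h ht).mono fun x hx => mul_nonneg (psi_nonneg ht0 x) (h0 x hx))

lemma mm_lin (h : IsFlow w I) (ht : t ∈ I) (ht0 : t < 0) (hF : Sm (I ×ˢ univ) F)
    (hG : Sm (I ×ˢ univ) G) (a b : ℝ) :
    mm w (fun p => a * F p + b * G p) t = a * mm w F t + b * mm w G t := by
  rw [mm, mm, mm, ← integral_const_mul, ← integral_const_mul, ← integral_add
    ((integrable_psi h ht ht0 hF).const_mul a) ((integrable_psi h ht ht0 hG).const_mul b)]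
  congr 1
  ext x
  ring

/-- the differential inequality for weighted integrals -/
theorem exists_deriv_le : ∃ K : ℝ, 0 ≤ K ∧ ∀ w I A, Cfg w I A → ∀ t ∈ Ioo (-1 : ℝ) 0,
    ∀ F R : ST → ℝ, Sm (I ×ˢ univ) F → Sm (I ×ˢ univ) R →
    (∀ x, ‖x‖ ≤ 1 → w t x = 0 → 0 ≤ F (t, x) ∧ F (t, x) ≤ 1 ∧ heat w (cur F) t x ≤ R (t, x)) →
    ∃ d, HasDerivAt (mm w F) d t ∧ d ≤ mm w R t + K * A * -t := by
  obtain ⟨K, hK, hle⟩ := adj_psi_le
  refine ⟨K, hK, fun w I A h t ht F R hF hR hb => ?_⟩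
  have hJ : Ioo (-1 : ℝ) 0 ⊆ I := Ioo_subset_Icc_self.trans h.sub
  have htI := hJ ht
  have hneg : 0 < -t := neg_pos.2 ht.2
  have := (h.ratio t htI).locFin
  obtain ⟨h1, h2⟩ := P218UX.green' h.toIsFlow isOpen_Ioo hJ (ψ := psi) (f := cur F)
    (fun p hp => (contDiffAt_psi (n := 2) hp.1.2 p.2).contDiffWithinAt)
    ((hF.mono (prod_mono hJ subset_rfl)).of_le (by norm_cast)) (isCompact_closedBall 0 1)
    (fun s _ y hy => psi_zero s (by rw [mem_closedBall_zero_iff, not_le] at hy; exact hy.le)) ht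
  refine ⟨_, h2, ?_⟩
  have h3 : Integrable ((closedBall (0 : E3) 1).indicator fun _ => K * -t) (ar (w t)) :=
    (integrableOn_const (isCompact_closedBall 0 1).measure_lt_top.ne).integrable_indicator
      measurableSet_closedBall
  have h4 := integrable_psi h.toIsFlow htI ht.2 hR
  refine (integral_mono_ae h1 (h4.add h3) ((ae_track h.toIsFlow htI).mono fun x hx => ?_)).trans ?_
  · rcases le_or_gt ‖x‖ 1 with hx1 | hx1
    · obtain ⟨a1, a2, a3⟩ := hb x hx1 hx
      have a4 := hle w t x ht.1.le ht.2 (h.eik t htI x hx).self_of_nhds hx1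
        (abs_lap_le h.toIsFlow htI (h.bd t (Ioo_subset_Icc_self ht) x hx1 hx))
      have a5 : F (t, x) * adj w psi t x ≤ K * -t :=
        (mul_le_mul_of_nonneg_left a4 a1).trans (mul_le_of_le_one_left (by positivity) a2)
      simp only [Pi.add_apply, indicator_of_mem (mem_closedBall_zero_iff.2 hx1)]
      exact add_le_add (mul_le_mul_of_nonneg_left a3 (psi_nonneg ht.2 x)) a5
    · simp only [Pi.add_apply, indicator_of_notMem (mt mem_closedBall_zero_iff.1 hx1.not_ge),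
        psi_zero t hx1.le, adj_psi_zero ht.2 hx1]
      simp
  · rw [integral_add' h4 h3, integral_indicator measurableSet_closedBall, setIntegral_const,
      smul_eq_mul]
    have := mul_le_mul_of_nonneg_right ((h.ratio t htI).real_le (by linarith [h.one_le]) 0 one_pos)
      (show 0 ≤ K * -t by positivity)
    unfold mm
    linarith

/-- lower bound for the weighted integral near the final time -/
lemma exists_mm_ge (hM : Mono) (h : Cfg w I A) (h0 : w 0 0 = 0) (hF : Sm (I ×ˢ univ) F)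
    (hF0 : ∀ p, 0 ≤ F p) {c : ℝ} (hc : c < F (0, 0)) (ht : t < 0) :
    ∃ s ∈ Ioo t 0, c ≤ mm w F s := by
  classical
  have hI0 : (0 : ℝ) ∈ I := h.sub ⟨by norm_num, le_rfl⟩
  have hO := isOpen_st h.isOpen
  have hc1 : ContinuousOn (fun p : ST => chi p.2 * F p) (I ×ˢ univ) :=
    (chi.continuous.comp continuous_snd).continuousOn.mul hF.cont
  set f : ST → ℝ := (I ×ˢ (univ : Set E3)).piecewise (fun p => chi p.2 * F p) fun _ => 0 with hf
  have e : ∀ p ∈ I ×ˢ (univ : Set E3), f p = chi p.2 * F p := fun p hp =>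
    piecewise_eq_of_mem _ _ _ hp
  have hp0 : ((0, 0) : ST) ∈ I ×ˢ (univ : Set E3) := ⟨hI0, mem_univ _⟩
  have h1 := hM.dens w I h.toIsFlow 0 hI0 0 h0 f
    ((hc1.continuousAt (hO.mem_nhds hp0)).congr
      (eventually_of_mem (hO.mem_nhds hp0) fun p hp => (e p hp).symm))
    (hc1.measurable_piecewise continuousOn_const hO.measurableSet)
    (fun p => by
      by_cases hp : p ∈ I ×ˢ (univ : Set E3)
      · rw [e p hp]; exact mul_nonneg chi.nonneg (hF0 p)
      · rw [hf, piecewise_eq_of_notMem _ _ _ hp]) c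
    (by rw [e _ hp0, chi.one_of_mem_closedBall (by simp [chi]), one_mul]; exact hc)
  have h2 : ∀ᶠ r in 𝓝[>] (0 : ℝ), max t (-1) < 0 - r ^ 2 := by
    have : ContinuousAt (fun r : ℝ => 0 - r ^ 2) 0 := by fun_prop
    exact (this.eventually (lt_mem_nhds (by simp [ht]))).filter_mono nhdsWithin_le_nhds
  obtain ⟨r, ⟨a1, a2⟩, a3⟩ := ((h1.and h2).and self_mem_nhdsWithin).exists
  have a4 : 0 - r ^ 2 < 0 := by
    have : 0 < r := a3
    have : 0 < r ^ 2 := by positivity
    linarith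
  have a5 : 0 - r ^ 2 ∈ I := h.sub ⟨(max_lt_iff.1 a2).2.le, a4.le⟩
  refine ⟨0 - r ^ 2, ⟨(max_lt_iff.1 a2).1, a4⟩, ?_⟩
  rw [← ENNReal.ofReal_le_ofReal_iff (mm_nonneg h.toIsFlow a5 a4 fun x _ => hF0 _), mm,
    ofReal_integral_eq_lintegral_ofReal (integrable_psi h.toIsFlow a5 a4 hF)
      (Eventually.of_forall fun x => mul_nonneg (psi_nonneg a4 x) (hF0 _))]
  refine a1.trans (le_of_eq (lintegral_congr fun y => ?_))
  rw [e _ ⟨a5, mem_univ _⟩, psi, Ph, sub_zero, zero_sub, neg_neg]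
  congr 1
  ring

end Vale.Agent.P218UW
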