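import Vale.Agent.P218UX.Calc

/-! Parabolic rescaling about a space-time point. -/

open MeasureTheory Set Filter Topology Metric
open scoped ENNReal NNReal RealInnerProductSpace ContDiff Pointwise

namespace Vale.Agent.P218UW

open Vale.Agent.P218UA
open Vale.Agent.P218.H63 (lap hessSq)

/-- rescaling of a function on space -/
noncomputable def sc (f : E3 → ℝ) (x₁ : E3) (σ : ℝ) : E3 → ℝ := fun x => f (x₁ + σ • x) / σ

/-- parabolic rescaling by the factor `1 / σ` about `(t₁, x₁)` -/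
noncomputable def rs (w : ℝ → E3 → ℝ) (t₁ : ℝ) (x₁ : E3) (σ : ℝ) : ℝ → E3 → ℝ :=
  fun t => sc (w (t₁ + σ ^ 2 * t)) x₁ σ

variable {f : E3 → ℝ} {x₁ : E3} {σ t₁ : ℝ} {w : ℝ → E3 → ℝ} {I : Set ℝ}

lemma hasFDerivAt_aff (x₁ : E3) (σ : ℝ) (x : E3) :
    HasFDerivAt (fun x : E3 => x₁ + σ • x) (σ • ContinuousLinearMap.id ℝ E3) x :=
  ((hasFDerivAt_id x).const_smul σ).const_add x₁

lemma sc_eq_zero (hσ : σ ≠ 0) {x : E3} : sc f x₁ σ x = 0 ↔ f (x₁ + σ • x) = 0 := by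
  simp [sc, hσ]

lemma gradient_sc (hσ : σ ≠ 0) (hf : Differentiable ℝ f) (x : E3) :
    gradient (sc f x₁ σ) x = gradient f (x₁ + σ • x) := by
  have h := (((hf _).hasFDerivAt.comp x (hasFDerivAt_aff x₁ σ x)).mul_const σ⁻¹).fderiv
  have e : sc f x₁ σ = fun x => (f ∘ fun x : E3 => x₁ + σ • x) x * σ⁻¹ := by
    ext y; simp [sc, div_eq_mul_inv]
  rw [gradient, gradient, e, h]
  congr 1
  ext v
  simp [hσ]

lemma hs_sc (hσ : σ ≠ 0) (hf : ContDiff ℝ 2 f) (x : E3) :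
    hs (sc f x₁ σ) x = σ • hs f (x₁ + σ • x) := by
  have hg : ContDiff ℝ 1 (gradient f) :=
    (InnerProductSpace.toDual ℝ E3).symm.contDiff.comp (hf.fderiv_right (by norm_num))
  have e : gradient (sc f x₁ σ) = gradient f ∘ fun x : E3 => x₁ + σ • x :=
    funext (gradient_sc hσ (hf.differentiable (by norm_num)))
  rw [hs, e, ((hg.differentiable one_ne_zero _).hasFDerivAt.comp x
    (hasFDerivAt_aff x₁ σ x)).fderiv, hs]
  ext1 v
  simp

lemma lap_sc (hσ : σ ≠ 0) (hf : ContDiff ℝ 2 f) (x : E3) :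
    lap (sc f x₁ σ) x = σ * lap f (x₁ + σ • x) := by
  change LinearMap.trace ℝ E3 (hs (sc f x₁ σ) x).toLinearMap = _
  rw [hs_sc hσ hf, ContinuousLinearMap.toLinearMap_smul, map_smul]
  rfl

lemma hessSq_sc (hσ : σ ≠ 0) (hf : ContDiff ℝ 2 f) (x : E3) :
    hessSq (sc f x₁ σ) x = σ ^ 2 * hessSq f (x₁ + σ • x) := by
  change LinearMap.trace ℝ E3 ((hs (sc f x₁ σ) x).comp (hs (sc f x₁ σ) x)).toLinearMap = _
  rw [hs_sc hσ hf, ContinuousLinearMap.smul_comp, ContinuousLinearMap.comp_smul, smul_smul,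
    ContinuousLinearMap.toLinearMap_smul, map_smul, sq]
  rfl

/-- the affine map as a measurable equivalence -/
noncomputable def aff (x₁ : E3) (hσ : σ ≠ 0) : E3 ≃ᵐ E3 :=
  ((Homeomorph.smulOfNeZero σ hσ).trans (Homeomorph.addLeft x₁)).toMeasurableEquiv

lemma aff_apply (hσ : σ ≠ 0) (x : E3) : aff x₁ hσ x = x₁ + σ • x := rfl

lemma map_aff (hσ : 0 < σ) : (μHE[2] : Measure E3).map (aff x₁ hσ.ne')
    = ENNReal.ofReal (σ ^ 2)⁻¹ • (μHE[2] : Measure E3) := by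
  ext s hs
  have e : aff x₁ hσ.ne' ⁻¹' s = σ⁻¹ • ((fun y => x₁ + y) ⁻¹' s) := by
    ext y
    rw [mem_inv_smul_set_iff₀ hσ.ne']
    rfl
  rw [MeasurableEquiv.map_apply, e, Measure.euclideanHausdorffMeasure_smul₀ 2 (inv_ne_zero hσ.ne'),
    measure_preimage_add, Measure.smul_apply, ENNReal.smul_def, smul_eq_mul, smul_eq_mul]
  congr 1
  rw [← ENNReal.ofReal_coe_nnreal]
  simp

lemma map_ar_sc (hσ : 0 < σ) (f : E3 → ℝ) :
    (ar (sc f x₁ σ)).map (aff x₁ hσ.ne') = ENNReal.ofReal (σ ^ 2)⁻¹ • ar f := by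
  have e : {x | sc f x₁ σ x = 0} = aff x₁ hσ.ne' ⁻¹' {x | f x = 0} := by
    ext x; exact sc_eq_zero hσ.ne'
  rw [ar, e, ← MeasurableEquiv.restrict_map, map_aff hσ, Measure.restrict_smul, ar]

lemma integral_sc (hσ : 0 < σ) (f g : E3 → ℝ) :
    ∫ y, g (x₁ + σ • y) ∂(ar (sc f x₁ σ)) = (σ ^ 2)⁻¹ * ∫ y, g y ∂(ar f) := by
  have h := integral_map_equiv (μ := ar (sc f x₁ σ)) (aff x₁ hσ.ne') g
  rw [map_ar_sc hσ, integral_smul_measure, ENNReal.toReal_ofReal (by positivity)] at h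
  exact h.symm

lemma ar_sc_apply (hσ : 0 < σ) (f : E3 → ℝ) (s : Set E3) :
    ar (sc f x₁ σ) ((fun y => x₁ + σ • y) ⁻¹' s) = ENNReal.ofReal (σ ^ 2)⁻¹ * ar f s := by
  have h := (aff x₁ hσ.ne').map_apply (μ := ar (sc f x₁ σ)) s
  rw [map_ar_sc hσ] at h
  exact h.symm

lemma norm_aff_sub (hσ : 0 < σ) (x y : E3) : ‖x₁ + σ • y - (x₁ + σ • x)‖ = σ * ‖y - x‖ := by
  rw [add_sub_add_left_eq_sub, ← smul_sub, norm_smul, Real.norm_eq_abs, abs_of_pos hσ]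

lemma AR_sc (hσ : 0 < σ) {A : ℝ} (h : AR (ar f) A) : AR (ar (sc f x₁ σ)) A := by
  intro x r hr
  have e : closedBall x r = (fun y => x₁ + σ • y) ⁻¹' closedBall (x₁ + σ • x) (σ * r) := by
    ext y
    rw [mem_preimage, mem_closedBall_iff_norm, mem_closedBall_iff_norm, norm_aff_sub hσ,
      mul_le_mul_iff_right₀ hσ]
  rw [e, ar_sc_apply hσ]
  refine (mul_le_mul_right (h _ _ (by positivity)) _).trans (le_of_eq ?_)
  rw [← ENNReal.ofReal_mul (by positivity)]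
  congr 1
  field_simp

lemma gd_sc (hσ : 0 < σ) (f : E3 → ℝ) (x : E3) (r : ℝ) :
    gd (ar (sc f x₁ σ)) x r = gd (ar f) (x₁ + σ • x) (σ * r) := by
  have h := integral_sc (x₁ := x₁) hσ f
    fun y => Real.exp (-‖y - (x₁ + σ • x)‖ ^ 2 / (4 * (σ * r) ^ 2))
  have e : ∀ y : E3, -‖x₁ + σ • y - (x₁ + σ • x)‖ ^ 2 / (4 * (σ * r) ^ 2)
      = -‖y - x‖ ^ 2 / (4 * r ^ 2) := fun y => by
    rw [norm_aff_sub hσ]
    rcases eq_or_ne r 0 with rfl | hr
    · simp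
    · field_simp
  simp only [e] at h
  rw [gd, gd, h]
  rcases eq_or_ne r 0 with rfl | hr
  · simp
  · field_simp

theorem isFlow_rs (h : IsFlow w I) (t₁ : ℝ) (x₁ : E3) (hσ : 0 < σ) :
    IsFlow (rs w t₁ x₁ σ) ((fun t => t₁ + σ ^ 2 * t) ⁻¹' I) := by
  have hc : Continuous fun t : ℝ => t₁ + σ ^ 2 * t := by fun_prop
  have hO := h.isOpen.preimage hc
  have hT : ContDiff ℝ ∞ fun p : ℝ × E3 => (t₁ + σ ^ 2 * p.1, x₁ + σ • p.2) := by fun_prop
  have h2 : ∀ t ∈ I, ContDiff ℝ 2 (w t) := fun t ht =>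
    (P218UX.slice h ht).smooth.of_le (by norm_cast)
  refine ⟨hO, h.conn.preimage_mono fun a b hab => by gcongr, ?_, ?_, ?_⟩
  · exact (h.smooth.comp hT.contDiffOn fun p hp => ⟨hp.1, mem_univ _⟩).div_const σ
  · intro t ht x hx
    have h1 := (hT.continuous.tendsto (t, x)).eventually
      (h.eik _ ht _ ((sc_eq_zero hσ.ne').1 hx))
    filter_upwards [h1, continuous_fst.continuousAt.eventually (hO.mem_nhds ht)] with p hp hp'
    rw [rs, gradient_sc hσ.ne' ((h2 _ hp').differentiable (by norm_num))]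
    exact hp
  · intro t ht x hx
    have h1 : DifferentiableAt ℝ (fun s => w s (x₁ + σ • x)) (t₁ + σ ^ 2 * t) :=
      (P218UX.hasDerivAt_fst ((P218UX.cdAt h.isOpen h.smooth ht _).differentiableAt
        (by simp))).differentiableAt
    have h3 := (h1.hasDerivAt.comp t
      (((hasDerivAt_id t).const_mul (σ ^ 2)).const_add t₁)).div_const σ
    have h4 : deriv (fun s => rs w t₁ x₁ σ s x) t = _ := h3.deriv
    rw [h4, rs, lap_sc hσ.ne' (h2 _ ht), h.eqn _ ht _ ((sc_eq_zero hσ.ne').1 hx)]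
    field_simp

theorem isARFlow_rs {A : ℝ} (h : IsARFlow w I A) (t₁ : ℝ) (x₁ : E3) (hσ : 0 < σ) :
    IsARFlow (rs w t₁ x₁ σ) ((fun t => t₁ + σ ^ 2 * t) ⁻¹' I) A :=
  ⟨isFlow_rs h.toIsFlow t₁ x₁ hσ, h.one_le, fun _ ht => AR_sc hσ (h.ratio _ ht)⟩

end Vale.Agent.P218UW
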