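import Vale.Agent.P218UW.Core
import Vale.Agent.P218UW.Resc

/-! White's local regularity theorem for smooth flows, by point picking and rescaling. -/

open MeasureTheory Set Filter Topology Metric
open scoped ENNReal RealInnerProductSpace ContDiff

namespace Vale.Agent.P218UW

open Vale.Agent.P218UA
open Vale.Agent.P218.H63 (lap hessSq)

variable {w : ℝ → E3 → ℝ} {I : Set ℝ} {A : ℝ}

lemma gd_mono (hM : Mono) (h : IsARFlow w I A) (x : E3) {t r ρ c : ℝ} (hr : 0 < r) (hρ : r ≤ ρ)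
    (h1 : t - ρ ^ 2 ∈ I) (h2 : t - r ^ 2 ∈ I) (hc : 0 ≤ c) (hd : gd (ar (w (t - ρ ^ 2))) x ρ ≤ c) :
    gd (ar (w (t - r ^ 2))) x r ≤ c := by
  have a1 := hM.mono w I A h x t _ _ h1 h2 (by nlinarith) (by nlinarith)
  rw [sub_sub_cancel, sub_sub_cancel, Real.sqrt_sq hr.le, Real.sqrt_sq (hr.le.trans hρ)] at a1
  exact (ENNReal.ofReal_le_ofReal_iff hc).1
    (le_self_add.trans (a1.trans (ENNReal.ofReal_le_ofReal hd)))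

lemma SS_rs (h : IsFlow w I) {t₁ σ t : ℝ} (x₁ x : E3) (hσ : 0 < σ) (ht : t₁ + σ ^ 2 * t ∈ I) :
    SS (unc (rs w t₁ x₁ σ)) (t, x) = σ ^ 2 * SS (unc w) (t₁ + σ ^ 2 * t, x₁ + σ • x) := by
  rw [← hessSq_eq_SS (isFlow_rs h t₁ x₁ hσ) ht, ← hessSq_eq_SS h ht, rs,
    hessSq_sc hσ.ne' ((P218UX.slice h ht).smooth.of_le (by norm_cast))]

/-- **White's local regularity theorem** -/
theorem white (hM : Mono) : WhiteStmt := by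
  intro A η hη
  obtain ⟨θ, hθ0, hθ1, hθ⟩ : ∃ θ, 0 < θ ∧ θ ≤ 1 ∧ θ ≤ η ^ 2 :=
    ⟨min 1 (η ^ 2), by positivity, min_le_left _ _, min_le_right _ _⟩
  obtain ⟨ε, hε, hcore⟩ := core hM A (κ := θ / 8) (by positivity)
  refine ⟨ε, hε, fun w I h x₀ t₀ ρ hρ hI hd h0 => ?_⟩
  by_contra hcon
  rw [not_le] at hcon
  have hF := h.toIsFlow
  have hO := isOpen_st h.isOpen
  have hρ2 : 0 < ρ ^ 2 := by positivity
  have hI' : Icc (t₀ - ρ ^ 2) t₀ ⊆ I := (Icc_subset_Icc_left (by linarith)).trans hI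
  have hsub : Icc (t₀ - ρ ^ 2) t₀ ×ˢ closedBall x₀ ρ ⊆ I ×ˢ (univ : Set E3) :=
    prod_mono hI' (subset_univ _)
  have hc : IsCompact (Icc (t₀ - ρ ^ 2) t₀ ×ˢ closedBall x₀ ρ) :=
    isCompact_Icc.prod (isCompact_closedBall _ _)
  have hK : IsCompact (Icc (t₀ - ρ ^ 2) t₀ ×ˢ closedBall x₀ ρ ∩ unc w ⁻¹' {0}) :=
    hc.of_isClosed_subset (((sm_flow hF).cont.mono hsub).preimage_isClosed_of_isClosed hc.isClosed
      isClosed_singleton) inter_subset_left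
  obtain ⟨D, hD⟩ : ∃ D : ST → ℝ, D = fun p => min ((ρ - ‖p.2 - x₀‖) ^ 2) (p.1 - t₀ + ρ ^ 2) :=
    ⟨_, rfl⟩
  have hp0 : (t₀, x₀) ∈ Icc (t₀ - ρ ^ 2) t₀ ×ˢ closedBall x₀ ρ ∩ unc w ⁻¹' {0} :=
    ⟨⟨⟨by linarith, le_rfl⟩, mem_closedBall_self hρ.le⟩, h0⟩
  obtain ⟨⟨t₁, x₁⟩, ⟨⟨ht₁, hx₁⟩, hw₁⟩, hmax⟩ := hK.exists_isMaxOn ⟨_, hp0⟩
    (f := fun p => SS (unc w) p * D p)
    ((((sm_flow hF).SS hO).cont.mono (inter_subset_left.trans hsub)).mul (by rw [hD]; fun_prop))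
  rw [mem_closedBall_iff_norm] at hx₁
  simp only [mem_Icc] at ht₁ hx₁
  have a0 : θ < SS (unc w) (t₁, x₁) * D (t₁, x₁) := by
    refine lt_of_lt_of_le ?_ (hmax hp0)
    have b1 := norm_hs_sq_le hO (sm_flow hF) (t := t₀) (x := x₀) (hsub hp0.1)
    rw [hessSq_eq_SS hF (hsub hp0.1).1] at b1
    have b2 := pow_lt_pow_left₀ hcon (by positivity) two_ne_zero
    rw [div_pow, div_lt_iff₀ hρ2] at b2
    have b3 : D (t₀, x₀) = ρ ^ 2 := by simp [hD]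
    simp only [b3]
    nlinarith
  obtain ⟨S₁, hS₁⟩ : ∃ S₁, S₁ = SS (unc w) (t₁, x₁) := ⟨_, rfl⟩
  obtain ⟨D₁, hD₁⟩ : ∃ D₁, D₁ = D (t₁, x₁) := ⟨_, rfl⟩
  have d1 : D₁ ≤ (ρ - ‖x₁ - x₀‖) ^ 2 := by rw [hD₁, hD]; exact min_le_left _ _
  have d2 : D₁ ≤ t₁ - t₀ + ρ ^ 2 := by rw [hD₁, hD]; exact min_le_right _ _
  rw [← hS₁, ← hD₁] at a0
  have hS0 : 0 < S₁ := by
    refine lt_of_le_of_ne (hS₁ ▸ SS_nonneg _ _) fun e => ?_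
    rw [← e, zero_mul] at a0
    linarith
  have hD0 : 0 < D₁ := (mul_pos_iff_of_pos_left hS0).1 (hθ0.trans a0)
  obtain ⟨σ, hσ, hσ2⟩ : ∃ σ, 0 < σ ∧ σ ^ 2 * S₁ = θ / 4 :=
    ⟨√(θ / (4 * S₁)), by positivity, by rw [Real.sq_sqrt (by positivity)]; field_simp⟩
  have s1 : σ ^ 2 ≤ D₁ / 4 := le_of_mul_le_mul_right (by linarith) hS0
  have s2 : 2 * σ ≤ ρ - ‖x₁ - x₀‖ :=
    (abs_le_of_sq_le_sq' (by linarith) (by linarith)).2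
  have s3 : σ ≤ ρ := by linarith [norm_nonneg (x₁ - x₀)]
  have hx : ∀ x : E3, ‖x‖ ≤ 1 → ‖x₁ + σ • x - x₀‖ ≤ ‖x₁ - x₀‖ + σ := fun x hx => by
    rw [add_sub_right_comm]
    refine (norm_add_le _ _).trans (add_le_add le_rfl ?_)
    rw [norm_smul, Real.norm_eq_abs, abs_of_pos hσ]
    exact mul_le_of_le_one_right hσ.le hx
  have ht : ∀ t ∈ Icc (-1 : ℝ) 0, t₁ - σ ^ 2 ≤ t₁ + σ ^ 2 * t ∧ t₁ + σ ^ 2 * t ≤ t₁ := fun t ht => by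
    constructor <;> nlinarith [ht.1, ht.2, sq_nonneg σ]
  have hT : ∀ t ∈ Icc (-1 : ℝ) 0, t₁ + σ ^ 2 * t ∈ Icc (t₀ - ρ ^ 2) t₀ := fun t h1 =>
    ⟨by linarith [(ht t h1).1], by linarith [(ht t h1).2]⟩
  have hcfg : Cfg (rs w t₁ x₁ σ) ((fun t => t₁ + σ ^ 2 * t) ⁻¹' I) A := by
    refine ⟨isARFlow_rs h t₁ x₁ hσ, fun t h1 => hI' (hT t h1), fun t h1 x h2 h3 => ?_⟩
    rw [SS_rs hF x₁ x hσ (hI' (hT t h1))]
    have b1 := hx x h2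
    have b2 : SS (unc w) (t₁ + σ ^ 2 * t, x₁ + σ • x) * D (t₁ + σ ^ 2 * t, x₁ + σ • x) ≤ S₁ * D₁ :=
      hS₁ ▸ hD₁ ▸ hmax ⟨⟨hT t h1, mem_closedBall_iff_norm.2 (by linarith)⟩,
        (sc_eq_zero hσ.ne').1 h3⟩
    have b3 : D₁ / 4 ≤ D (t₁ + σ ^ 2 * t, x₁ + σ • x) := by
      rw [hD]
      refine le_min ?_ (by linarith [(ht t h1).1])
      have := pow_le_pow_left₀ (by linarith)
        (show (ρ - ‖x₁ - x₀‖) / 2 ≤ ρ - ‖x₁ + σ • x - x₀‖ by linarith) 2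
      linarith
    have b4 := mul_le_mul_of_nonneg_left b3 (SS_nonneg (unc w) (t₁ + σ ^ 2 * t, x₁ + σ • x))
    have b5 : SS (unc w) (t₁ + σ ^ 2 * t, x₁ + σ • x) ≤ 4 * S₁ :=
      le_of_mul_le_mul_right (by linarith) hD0
    nlinarith [sq_nonneg σ]
  have a1 := hcore _ _ hcfg (fun x h2 h3 => by
    have e : t₁ + σ ^ 2 * -1 = t₁ - σ ^ 2 := by ring
    rw [rs, gd_sc hσ, mul_one, e]
    rw [rs, sc_eq_zero hσ.ne', mul_zero, add_zero] at h3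
    exact gd_mono hM h _ hσ s3 (hI ⟨by linarith, by linarith⟩)
      (hI' ⟨by linarith, by linarith [sq_nonneg σ]⟩) (by linarith)
      (hd t₁ ht₁ _ (mem_closedBall_iff_norm.2 (by linarith [hx x h2])) h3))
    (by rw [rs, sc_eq_zero hσ.ne', mul_zero, add_zero, smul_zero, add_zero]; exact hw₁)
  rw [SS_rs hF x₁ 0 hσ (hI' (hT 0 ⟨by norm_num, le_rfl⟩)), mul_zero, add_zero, smul_zero, add_zero,
    ← hS₁] at a1
  linarith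

end Vale.Agent.P218UW
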